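import Crest.Agent.N221.Ch.Defs

/-! Row 221, block Ch: linear algebra (abstract). -/

set_option autoImplicit false
set_option linter.unusedSectionVars false
set_option linter.unusedVariables false

open MeasureTheory Set Filter Topology Metric
open scoped ContDiff RealInnerProductSpace ENNReal
open Crest.GeometryTopology.Submanifold
open Crest.Agent.R241.DDefs Crest.Agent.R241.D2
open Crest.Agent.R208.J Crest.Agent.R208.L

noncomputable section

namespace Crest.Agent.N221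

variable {k l m : ℕ} {J : Euc k →L[ℝ] Euc l}

lemma contDiff_adj : ContDiff ℝ ∞ fun J : Euc k →L[ℝ] Euc l => J.adjoint :=
  (ContinuousLinearMap.adjoint (𝕜 := ℝ) (E := Euc k) (F := Euc l)).contDiff

lemma isUnit_gram (hJ : Function.Injective J) : IsUnit (J.adjoint ∘L J) :=
  ContinuousLinearMap.isUnit_iff_isUnit_toLinearMap.2 ((LinearMap.isUnit_iff_ker_eq_bot _).2
    (J.ker_adjoint_comp_self.trans (LinearMap.ker_eq_bot.2 hJ)))

lemma contDiffAt_gi (hJ : Function.Injective J) :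
    ContDiffAt ℝ ∞ (gi : (Euc k →L[ℝ] Euc l) → _) J :=
  ContDiffAt.comp J (g := Ring.inverse) (f := fun J : Euc k →L[ℝ] Euc l => J.adjoint ∘L J)
    (contDiffAt_ringInverse ℝ (isUnit_gram hJ).unit) (contDiff_adj.clm_comp contDiff_id).contDiffAt

lemma gram_gi (hJ : Function.Injective J) (p : Euc k) : J.adjoint (J (gi J p)) = p :=
  congrArg (· p) (Ring.mul_inverse_cancel _ (isUnit_gram hJ))

lemma gi_gram (hJ : Function.Injective J) (p : Euc k) : gi J (J.adjoint (J p)) = p :=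
  congrArg (· p) (Ring.inverse_mul_cancel _ (isUnit_gram hJ))

lemma inner_gi (hJ : Function.Injective J) (p p' : Euc k) :
    ⟪p, gi J p'⟫ = ⟪J (gi J p), J (gi J p')⟫ := by
  rw [← ContinuousLinearMap.adjoint_inner_left J, gram_gi hJ]

lemma lin_inj (hJ : ∀ e, ‖e‖ ≤ ‖J e‖) : Function.Injective J :=
  (injective_iff_map_eq_zero J).2 fun e he => norm_le_zero_iff.1 (by simpa [he] using hJ e)

lemma norm_J_gi_le (hJ : ∀ e, ‖e‖ ≤ ‖J e‖) (p : Euc k) : ‖J (gi J p)‖ ≤ ‖p‖ := by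
  have h1 := inner_gi (lin_inj hJ) p p
  rw [real_inner_self_eq_norm_sq] at h1
  have h2 := (real_inner_le_norm p (gi J p)).trans
    (mul_le_mul_of_nonneg_left (hJ _) (norm_nonneg _))
  exact le_of_not_gt fun h => by nlinarith [norm_nonneg p]

lemma inner_gi_le (hJ : ∀ e, ‖e‖ ≤ ‖J e‖) (p : Euc k) : ⟪p, gi J p⟫ ≤ ‖p‖ ^ 2 := by
  rw [inner_gi (lin_inj hJ), real_inner_self_eq_norm_sq]
  exact pow_le_pow_left₀ (norm_nonneg _) (norm_J_gi_le hJ p) 2


lemma det_gram_pos (hJ : Function.Injective J) : 0 < (J.adjoint ∘L J).det := by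
  have h := J.normDet_sq
  simp only [RCLike.ofReal_real_eq_id, id] at h
  rw [← h]
  exact sq_pos_of_ne_zero fun e =>
    LinearMap.normDet_eq_zero_iff_ker_ne_bot.1 e (LinearMap.ker_eq_bot.2 hJ)

/-- an injective map into a subspace of the same dimension is onto -/
lemma surj_of_finrank (hJ : Function.Injective J) {V : Submodule ℝ (Euc l)} (hV : ∀ e, J e ∈ V)
    (hk : Module.finrank ℝ V = k) {w : Euc l} (hw : w ∈ V) : ∃ e, J e = w := by
  have h := Submodule.eq_of_le_of_finrank_eq (S₁ := LinearMap.range (J : Euc k →ₗ[ℝ] Euc l))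
    (S₂ := V) (by rintro _ ⟨e, rfl⟩; exact hV e)
    (by rw [LinearMap.finrank_range_of_inj hJ, hk, finrank_euclideanSpace_fin])
  rwa [← h] at hw

/-- decomposition along a hyperplane and its unit normal -/
lemma decomp_normal (hJ : Function.Injective J) {T : Submodule ℝ (Euc l)} (hT : ∀ e, J e ∈ T)
    (hk : Module.finrank ℝ T = k + 1) {ν : Euc l} (hν : ν ∈ T) (h1 : ‖ν‖ = 1)
    (h0 : ∀ e, ⟪ν, J e⟫ = 0) {u : Euc l} (hu : u ∈ T) :
    u = J (gi J (J.adjoint u)) + ⟪u, ν⟫ • ν := by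
  have h2 : ⟪ν, ν⟫ = 1 := by rw [real_inner_self_eq_norm_sq, h1, one_pow]
  have h3 : ν ∉ LinearMap.range (J : Euc k →ₗ[ℝ] Euc l) := by
    rintro ⟨e, he⟩
    have := h0 e
    rw [show J e = ν from he, h2] at this
    exact one_ne_zero this
  have h := Submodule.eq_of_le_of_finrank_eq
    (S₁ := LinearMap.range (J : Euc k →ₗ[ℝ] Euc l) ⊔ Submodule.span ℝ {ν}) (S₂ := T)
    (sup_le (by rintro _ ⟨e, rfl⟩; exact hT e) ((Submodule.span_singleton_le_iff_mem _ _).2 hν))
    (by rw [Submodule.finrank_sup_span_singleton h3, LinearMap.finrank_range_of_inj hJ, hk,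
      finrank_euclideanSpace_fin])
  rw [← h] at hu
  obtain ⟨_, ⟨e, rfl⟩, _, hb, rfl⟩ := Submodule.mem_sup.1 hu
  obtain ⟨t, rfl⟩ := Submodule.mem_span_singleton.1 hb
  have h4 : J.adjoint ν = 0 := ext_inner_right ℝ fun e => by
    rw [ContinuousLinearMap.adjoint_inner_left, h0, inner_zero_left]
  rw [ContinuousLinearMap.coe_coe, map_add, map_smul, h4, smul_zero, add_zero, gi_gram hJ,
    inner_add_left, real_inner_comm, h0, real_inner_smul_left, h2, zero_add, mul_one]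

lemma lin_det_comm (A : Euc l →ₗ[ℝ] Euc k) (B : Euc k →ₗ[ℝ] Euc l) :
    LinearMap.det (LinearMap.id + A ∘ₗ B) = LinearMap.det (LinearMap.id + B ∘ₗ A) := by
  let a := (EuclideanSpace.basisFun (Fin k) ℝ).toBasis
  let b := (EuclideanSpace.basisFun (Fin l) ℝ).toBasis
  rw [← LinearMap.det_toMatrix a, ← LinearMap.det_toMatrix b, map_add, map_add,
    LinearMap.toMatrix_id, LinearMap.toMatrix_id, LinearMap.toMatrix_comp a b a,
    LinearMap.toMatrix_comp b a b, Matrix.det_one_add_mul_comm]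

/-- `det (J* E J) = det (J* J) det E` if `E - 1` takes values in the range of `J`
(`det (1 + A B) = det (1 + B A)` with `A = gi J J*`, `B = (E - 1) J` ...) -/
lemma det_gram_conj (hJ : Function.Injective J) {E : Euc l →L[ℝ] Euc l}
    (hE : ∀ w, ∃ e, E w - w = J e) :
    (J.adjoint ∘L E ∘L J).det = (J.adjoint ∘L J).det * E.det := by
  let A : Euc l →ₗ[ℝ] Euc k := (gi J ∘L J.adjoint ∘L (E - ContinuousLinearMap.id ℝ _) :
    Euc l →L[ℝ] Euc k)
  have hA : ∀ w, J (A w) = E w - w := fun w => by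
    obtain ⟨e, he⟩ := hE w
    show J (gi J (J.adjoint (E w - w))) = _
    rw [he, gi_gram hJ]
  have h1 : (E : Euc l →ₗ[ℝ] Euc l) = LinearMap.id + (J : Euc k →ₗ[ℝ] Euc l) ∘ₗ A :=
    LinearMap.ext fun w => by simp [hA]
  rw [ContinuousLinearMap.det, ContinuousLinearMap.det, ContinuousLinearMap.det, h1,
    ← lin_det_comm, ← LinearMap.det_comp]
  congr 1
  exact LinearMap.ext fun e => by simp [hA]

lemma om_antisymm (z w : ZZ m) : om z w = -om w z := by
  simp [om]

lemma om_flp (z w : ZZ m) : om (flp z) (flp w) = -om z w := by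
  simp only [om, flp, inner_neg_left]
  ring

lemma flp_flp (z : ZZ m) : flp (flp z) = z := by
  simp [flp]

lemma norm_flp (z : ZZ m) : ‖flp z‖ = ‖z‖ := by
  simp [flp, Prod.norm_def]


/-- a map with `T* (p dq) - p dq` exact is symplectic -/
lemma om_of_exact {T : ZZ m → ZZ m} {τ : ZZ m → ℝ} {z : ZZ m} (hT : ContDiffAt ℝ ∞ T z)
    (hτ : ContDiffAt ℝ ∞ τ z)
    (h : ∀ᶠ w in 𝓝 z, ∀ δ, ⟪(T w).2, (fderiv ℝ T w δ).1⟫ = ⟪w.2, δ.1⟫ + fderiv ℝ τ w δ)
    (δ δ' : ZZ m) : om (fderiv ℝ T z δ) (fderiv ℝ T z δ') = om δ δ' := by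
  have l2 : minSmoothness ℝ 2 ≤ (∞ : WithTop ℕ∞) := by
    rw [minSmoothness_of_isRCLikeNormedField]; exact WithTop.coe_le_coe.2 le_top
  have d1 := (hT.differentiableAt (by simp)).hasFDerivAt
  have d2 := ((hT.fderiv_right (m := ∞) (by simp)).differentiableAt (by simp)).hasFDerivAt
  have d3 := ((hτ.fderiv_right (m := ∞) (by simp)).differentiableAt (by simp)).hasFDerivAt
  have key : ∀ u u' : ZZ m, ⟪(T z).2, (fderiv ℝ (fderiv ℝ T) z u' u).1⟫ +
      ⟪(fderiv ℝ T z u').2, (fderiv ℝ T z u).1⟫ =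
      ⟪u'.2, u.1⟫ + fderiv ℝ (fderiv ℝ τ) z u' u := fun u u' => by
    have e := ((d1.snd.inner ℝ (d2.clm_apply (hasFDerivAt_const u z)).fst).congr_of_eventuallyEq
      (h.mono fun w hw => (hw u).symm)).unique
      ((hasFDerivAt_snd.inner ℝ (hasFDerivAt_const u.1 z)).add (d3.clm_apply (hasFDerivAt_const u z)))
    simpa [fderivInnerCLM_apply] using congrArg (· u') e
  have k1 := key δ δ'
  have k2 := key δ' δ
  rw [(hT.isSymmSndFDerivAt l2).eq, (hτ.isSymmSndFDerivAt l2).eq] at k1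
  rw [om, om]
  linarith

/-- zeros of a strongly monotone field -/
lemma exists_zero_mono {F : Euc m → Euc m} {r c : ℝ} (hr : 0 < r) (hc : 0 < c)
    {φ : Euc m → ℝ} (hφ : ∀ q, HasFDerivAt φ (innerSL ℝ (F q)) q)
    (hm : ∀ q, ‖q‖ ≤ r → ⟪F q - F 0, q⟫ ≤ -(c * ‖q‖ ^ 2)) (h0 : 4 * ‖F 0‖ ≤ c * r) :
    ∃ q, c * ‖q‖ ≤ ‖F 0‖ ∧ F q = 0 := by
  have hd : Differentiable ℝ φ := fun q => (hφ q).differentiableAt
  obtain ⟨q, q1, q2⟩ := (isCompact_closedBall (0 : Euc m) r).exists_isMaxOn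
    ⟨0, mem_closedBall_self hr.le⟩ hd.continuous.continuousOn
  have q3 := mem_closedBall_zero_iff.1 q1
  have h1 := hm q q3
  have h2 := abs_le.1 (abs_real_inner_le_norm (F 0) q)
  rw [inner_sub_left] at h1
  have h3 := q2.localize.hasFDerivWithinAt_nonpos (hφ q).hasFDerivWithinAt
    (sub_mem_posTangentConeAt_of_segment_subset ((convex_closedBall _ _).segment_subset q1
      (mem_closedBall_self hr.le)))
  rw [zero_sub, map_neg, innerSL_apply_apply] at h3
  have h4 : c * ‖q‖ ≤ ‖F 0‖ := by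
    rcases (norm_nonneg q).eq_or_lt with e | e
    · rw [← e, mul_zero]; exact norm_nonneg _
    · exact le_of_mul_le_mul_right (by nlinarith) e
  have h5 : ‖q‖ < r := lt_of_mul_lt_mul_left (by nlinarith [mul_pos hc hr]) hc.le
  have h6 := (q2.isLocalMax (closedBall_mem_nhds_of_mem (mem_ball_zero_iff.2 h5))).hasFDerivAt_eq_zero
    (hφ q)
  exact ⟨q, h4, by simpa using congrArg (· (F q)) h6⟩

end Crest.Agent.N221
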