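import Crest.Agent.N221.Ch.Crs

/-! Row 221, block Ch: transition maps are exact symplectic; their action on the leaves. -/

set_option autoImplicit false
set_option linter.unusedSectionVars false
set_option linter.unusedVariables false

open MeasureTheory Set Filter Topology Metric
open scoped ContDiff RealInnerProductSpace ENNReal
open Crest.GeometryTopology.Submanifold
open Crest.Agent.R241.DDefs Crest.Agent.R241.D2
open Crest.Agent.R208.J Crest.Agent.R208.L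

noncomputable section

namespace Crest.Agent.N221.Cov

variable {n N m : ℕ} {a : ℝ} {S : Set (Euc N)} {G : Geo n N (-(a ^ 2)) S} (C : Cov G)
variable {f f' f'' : FF n N m} {z z' : ZZ m} {x y y' ξ η : Euc n} {v u u' : Euc N} {q q' : Euc m}
  {g : Euc n → Euc n} {s t : ℝ}

lemma Sy.det_adj {k : ℕ} (L : Euc k →L[ℝ] Euc k) : L.adjoint.det = L.det := by
  have b := stdOrthonormalBasis ℝ (Euc k)
  rw [ContinuousLinearMap.det, ContinuousLinearMap.det, ← ContinuousLinearMap.adjoint_toLinearMap,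
    ← LinearMap.det_toMatrix b.toBasis, LinearMap.toMatrix_adjoint, Matrix.det_conjTranspose,
    LinearMap.det_toMatrix, star_trivial]

/-- tangent vectors of `US G` are fixed by `dPi` -/
lemma Sy.dPi_fix {c : ℝ → TT N} {w : TT N} (h : HasDerivAt c w 0)
    (hc : ∀ᶠ s in 𝓝 (0 : ℝ), c s ∈ US G) : N221.H.dPi G (c 0) w = w := by
  have ht : Crest.Agent.R208.J.TanTS G (c 0) w := ⟨c, rfl, h, hc.mono fun _ h => h.1⟩
  have h2 : HasDerivAt (fun s => (c s).2) w.2 0 :=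
    (ContinuousLinearMap.snd ℝ (Euc N) (Euc N)).hasFDerivAt.comp_hasDerivAt 0 h
  have h3 := (h2.inner ℝ h2).unique ((hasDerivAt_const (0 : ℝ) (1 : ℝ)).congr_of_eventuallyEq
    (hc.mono fun s hs => by simp only [real_inner_self_eq_norm_sq, hs.2, one_pow]))
  have h4 : ⟪(c 0).2, w.2⟫ = 0 := by rw [real_inner_comm (c 0).2] at h3; linarith
  rw [N221.H.dPi_apply, (P_eq_self G ht.mem.1).1 ht.fst_mem, Pv_apply, h4, zero_smul, sub_zero,
    add_comm, ← ht.snd_eq]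

variable (H : Hyp n N a S) (hm : m + 1 = n) (hf : C.Frm f) (hf' : C.Frm f')
include H hm hf hf'

omit hf' in
lemma Sy.Dm (hz : z ∈ C.dm f f') : z ∈ C.Dm f :=
  C.Dm_of_le H hm hf (by linarith [hz.1, C.rr_pos H hm])

omit hf in
lemma Sy.le' (hz : z ∈ C.dm f f') : ‖C.Tf f f' z‖ ≤ 2 * C.rr m := by
  linarith [(C.Tf_spec H hm hf' hz).1, C.rr_pos H hm]

omit hf hf' in
lemma Sy.le1 (hz : C.gs f ξ q ∈ C.dm f f') : ‖q‖ ≤ 2 * C.rr m := by
  have : ‖q‖ ≤ ‖C.gs f ξ q‖ := norm_fst_le (C.gs f ξ q)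
  linarith [hz.1, C.rr_pos H hm]

omit hm hf' in
lemma Sy.dQ (hz : z ∈ C.Dm f) : HasFDerivAt (fun z => (C.pr (C.hy f z.1), C.uv f z))
    ((C.Jh f z.1 ∘L ContinuousLinearMap.fst ℝ _ _).prod (fderiv ℝ (C.uv f) z)) z :=
  ((C.hasFDerivAt_pr_hy f z.1).comp z hasFDerivAt_fst).prodMk
    (((C.contDiffAt_uv H hf hz).comp z (contDiffAt_const.prodMk contDiffAt_id)).differentiableAt
      (by simp)).hasFDerivAt

lemma Sy.fl_eq (hz : z ∈ C.dm f f') : fl G ((C.pr (C.hy f z.1), C.uv f z), C.tm f f' z) =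
    (C.pr (C.hy f' (C.Tf f f' z).1), C.uv f' (C.Tf f f' z)) := by
  rw [C.up_gd (C.un_uv H hf (Sy.Dm C H hm hf hz)).mem, (C.hy_Tf H hm hf hf' hz).1,
    (C.hy_Tf H hm hf hf' hz).2]

/-- the derivative of `hy_Tf` -/
lemma Sy.d_fl (hz : z ∈ C.dm f f') (δ : ZZ m) :
    C.Jh f' (C.Tf f f' z).1 (fderiv ℝ (C.Tf f f') z δ).1 =
      (fderiv ℝ (fl G) ((C.pr (C.hy f z.1), C.uv f z), C.tm f f' z)
        ((C.Jh f z.1 δ.1, fderiv ℝ (C.uv f) z δ), fderiv ℝ (C.tm f f') z δ)).1 := by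
  have hD := Sy.Dm C H hm hf hz
  have d1 := ((C.contDiffAt_Tf H hm hf hf' hz).differentiableAt (by simp)).hasFDerivAt
  have d2 := ((C.contDiffAt_tm H hm hf hf' hz).differentiableAt (by simp)).hasFDerivAt
  have d3 := (((contDiffAt_fl' G (C.un_uv H hf hD).ts (C.tm f f' z)).differentiableAt
    (by simp)).hasFDerivAt.comp z ((Sy.dQ C H hf hD).prodMk d2)).fst
  have d4 := (C.hasFDerivAt_pr_hy f' (C.Tf f f' z).1).comp z d1.fst
  exact DFunLike.congr_fun (d4.unique (d3.congr_of_eventuallyEq (mem_of_superset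
    ((C.isOpen_dm H hm hf hf').mem_nhds hz) fun w hw =>
      (congrArg Prod.fst (Sy.fl_eq C H hm hf hf' hw)).symm))) δ

/-- `T* (p dq) = p dq + d tm`.  Differentiate `hy_Tf` (true near `z`): the derivative of
`z ↦ (pr (hy q), uv z)` is fixed by `H.dPi` (`TanTS.snd_eq`, `‖uv‖ = 1`), `H.dPi_eq`,
`H.fderiv_fl_vec`, inner product of the first component with the velocity. -/
lemma exact_Tf (hz : z ∈ C.dm f f') (δ : ZZ m) :
    ⟪(C.Tf f f' z).2, (fderiv ℝ (C.Tf f f') z δ).1⟫ =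
      ⟪z.2, δ.1⟫ + fderiv ℝ (C.tm f f') z δ := by
  have hD := Sy.Dm C H hm hf hz
  have hQ : (C.pr (C.hy f z.1), C.uv f z) ∈ US G := C.un_uv H hf hD
  have hl : HasDerivAt (fun s : ℝ => z + s • δ) δ 0 := by
    simpa using ((hasDerivAt_id (0 : ℝ)).smul_const δ).const_add z
  have h1 := Sy.dPi_fix (G := G) ((Sy.dQ C H hf hD).comp_hasDerivAt_of_eq 0 hl (by simp))
    ((hl.continuousAt.eventually ((C.isOpen_Dm H hf).mem_nhds (by simpa using hD))).mono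
      fun s hs => C.un_uv H hf hs)
  simp only [Function.comp, zero_smul, add_zero, ContinuousLinearMap.prod_apply,
    ContinuousLinearMap.comp_apply, ContinuousLinearMap.coe_fst'] at h1
  have h2 := Sy.d_fl C H hm hf hf' hz δ
  have h3 := fl_US hQ (C.tm f f' z)
  rw [← h1, N221.H.dPi_eq (N221.H.isU H) H.a_pos hQ, N221.H.fderiv_fl_vec H hQ,
    Sy.fl_eq C H hm hf hf' hz] at h2
  rw [Sy.fl_eq C H hm hf hf' hz] at h3
  have h4 : ⟪C.uv f' (C.Tf f f' z), C.uv f' (C.Tf f f' z)⟫ = 1 := by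
    rw [real_inner_self_eq_norm_sq, show ‖C.uv f' (C.Tf f f' z)‖ = 1 from h3.2, one_pow]
  have h5 := N221.H.inner_vel_Pv h3
  rw [← C.adj_uv H hf' (C.Tf f f' z), ← C.adj_uv H hf z, ContinuousLinearMap.adjoint_inner_left,
    ContinuousLinearMap.adjoint_inner_left, h2]
  simp only [N221.H.vs_apply, N221.H.iot_apply, N221.H.vu_apply, N221.H.X_eq, N221.H.kap_apply,
    Prod.fst_add, Prod.smul_fst, inner_add_right, inner_smul_right, h4, mul_one] at h5 ⊢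
  rw [h5, h5, zero_add, zero_add]

lemma om_Tf (hz : z ∈ C.dm f f') (δ δ' : ZZ m) :
    om (fderiv ℝ (C.Tf f f') z δ) (fderiv ℝ (C.Tf f f') z δ') = om δ δ' :=
  om_of_exact (C.contDiffAt_Tf H hm hf hf' hz) (C.contDiffAt_tm H hm hf hf' hz)
    (mem_of_superset ((C.isOpen_dm H hm hf hf').mem_nhds hz) fun _ hw =>
      C.exact_Tf H hm hf hf' hw) δ δ'


lemma fderiv_Tf_symm (hz : z ∈ C.dm f f') (δ : ZZ m) :
    fderiv ℝ (C.Tf f' f) (C.Tf f f' z) (fderiv ℝ (C.Tf f f') z δ) = δ := by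
  have d1 := ((C.contDiffAt_Tf H hm hf hf' hz).differentiableAt (by simp)).hasFDerivAt
  have d2 := ((C.contDiffAt_Tf H hm hf' hf (C.Tf_symm H hm hf hf' hz).1).differentiableAt
    (by simp)).hasFDerivAt
  exact DFunLike.congr_fun ((d2.comp z d1).unique ((hasFDerivAt_id z).congr_of_eventuallyEq
    (mem_of_superset ((C.isOpen_dm H hm hf hf').mem_nhds hz) fun w hw =>
      (C.Tf_symm H hm hf hf' hw).2.1))) δ

/-- graphs go to graphs -/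
lemma Tf_gs (hξ : C.Fw f ξ) (hz : C.gs f ξ q ∈ C.dm f f') :
    C.Tf f f' (C.gs f ξ q) = C.gs f' ξ (C.lf f f' ξ q) ∧ C.Fw f' ξ ∧ ‖C.lf f f' ξ q‖ < C.rr m ∧
      C.bq f' ξ (C.lf f f' ξ q) =
        C.bq f ξ q + C.tm f f' (C.gs f ξ q) + (C.b ξ f'.1 - C.b ξ f.1) := by
  have h1 := (C.ge_gs H hm hf hξ (Sy.le1 C H hm hz)).2.2
  have h2 := C.Tf_spec H hm hf' hz
  have h3 := Sy.le' C H hm hf' hz
  have h4 := C.eq_gs H hf' (C.Dm_of_le H hm hf' h3)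
  have h5 := (C.rad H hm).front f' hf' _ h3
  rw [h2.2, h1] at h4 h5
  refine ⟨h4.symm, h5, (norm_fst_le _).trans_lt h2.1, ?_⟩
  rw [tm, h1]
  simp only [bq, lf, gs]
  ring

lemma Tf_gu (hη : C.Fw (fp f) η) (hz : C.gu f η q ∈ C.dm f f') :
    C.Tf f f' (C.gu f η q) = C.gu f' η (C.lf (fp f) (fp f') η q) ∧
      C.gs (fp f) η q ∈ C.dm (fp f) (fp f') ∧
      C.tm (fp f) (fp f') (C.gs (fp f) η q) = -C.tm f f' (C.gu f η q) := by
  have h1 : C.gs (fp f) η q ∈ C.dm (fp f) (fp f') := by rw [gs_fp]; exact C.dm_fp.2 hz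
  have h2 := (C.Tf_gs H hm (hf.fp C) (hf'.fp C) hη h1).1
  have h3 := C.Tf_fp H hm hf hf' hz
  rw [gs_fp, gs_fp, h3.1] at h2
  exact ⟨by rw [← flp_flp (C.Tf _ _ _), h2, flp_flp], h1, by rw [gs_fp, h3.2]⟩

omit hm hf hf' in
lemma Sy.d_gs (hξ : ξ ≠ 0) (f : FF n N m) (q : Euc m) :
    HasFDerivAt (C.gs f ξ) ((ContinuousLinearMap.id ℝ _).prod (C.HH f ξ q)) q :=
  (hasFDerivAt_id q).prodMk (C.hasFDerivAt_pq H hξ f q)

omit hm hf hf' in
lemma Sy.d_gu (hξ : ξ ≠ 0) (f : FF n N m) (q : Euc m) :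
    HasFDerivAt (C.gu f ξ) ((ContinuousLinearMap.id ℝ _).prod (-C.HH f ξ q)) q :=
  (hasFDerivAt_id q).prodMk (C.hasFDerivAt_pq H hξ f q).neg

lemma ev_gs (hξ : C.Fw f ξ) (hz : C.gs f ξ q ∈ C.dm f f') :
    ∀ᶠ q' in 𝓝 q, C.gs f ξ q' ∈ C.dm f f' :=
  (Sy.d_gs C H (bas_ne0 hξ.1) f q).continuousAt.eventually ((C.isOpen_dm H hm hf hf').mem_nhds hz)

lemma contDiffAt_lf (hξ : C.Fw f ξ) (hz : C.gs f ξ q ∈ C.dm f f') :
    ContDiffAt ℝ ∞ (C.lf f f' ξ) q :=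
  ((C.contDiffAt_Tf H hm hf hf' hz).comp q
    (contDiff_id.prodMk (C.contDiff_pq H (bas_ne0 hξ.1) f)).contDiffAt).fst

lemma lf_symm (hξ : C.Fw f ξ) (hz : C.gs f ξ q ∈ C.dm f f') :
    C.gs f' ξ (C.lf f f' ξ q) ∈ C.dm f' f ∧ C.lf f' f ξ (C.lf f f' ξ q) = q := by
  have h := C.Tf_symm H hm hf hf' hz
  rw [(C.Tf_gs H hm hf hf' hξ hz).1] at h
  exact ⟨h.1, congrArg Prod.fst h.2.1⟩

lemma Sy.d_Tf_gs (hξ : C.Fw f ξ) (hz : C.gs f ξ q ∈ C.dm f f') (e : Euc m) :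
    fderiv ℝ (C.Tf f f') (C.gs f ξ q) (e, C.HH f ξ q e) = (fderiv ℝ (C.lf f f' ξ) q e,
      C.HH f' ξ (C.lf f f' ξ q) (fderiv ℝ (C.lf f f' ξ) q e)) := by
  have h0 := bas_ne0 hξ.1
  have d1 := ((C.contDiffAt_Tf H hm hf hf' hz).differentiableAt (by simp)).hasFDerivAt.comp q
    (Sy.d_gs C H h0 f q)
  have d2 := (Sy.d_gs C H h0 f' _).comp q
    ((C.contDiffAt_lf H hm hf hf' hξ hz).differentiableAt (by simp)).hasFDerivAt
  exact DFunLike.congr_fun (d1.unique (d2.congr_of_eventuallyEq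
    ((C.ev_gs H hm hf hf' hξ hz).mono fun _ h => (C.Tf_gs H hm hf hf' hξ h).1))) e

/-- invariance of `E^s` -/
lemma fderiv_Tf_s (hz : z ∈ C.dm f f') (e : Euc m) :
    fderiv ℝ (C.Tf f f') z (e, C.Ss f z e) =
      (fderiv ℝ (C.lf f f' (C.ge f z).1) z.1 e,
        C.Ss f' (C.Tf f f' z) (fderiv ℝ (C.lf f f' (C.ge f z).1) z.1 e)) := by
  have h1 := C.eq_gs H hf (Sy.Dm C H hm hf hz)
  have h2 := Sy.d_Tf_gs C H hm hf hf' ((C.rad H hm).front f hf z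
    (by linarith [hz.1, C.rr_pos H hm])) (h1.symm ▸ hz) e
  rw [h1, lf, h1] at h2
  rw [Ss, Ss, (C.Tf_spec H hm hf' hz).2, h2]

/-- invariance of `E^u` -/
lemma fderiv_Tf_u (hz : z ∈ C.dm f f') (e : Euc m) :
    fderiv ℝ (C.Tf f f') z (e, C.Su f z e) =
      (fderiv ℝ (C.lf (fp f) (fp f') (C.ge f z).2) z.1 e,
        C.Su f' (C.Tf f f' z) (fderiv ℝ (C.lf (fp f) (fp f') (C.ge f z).2) z.1 e)) := by
  have h1 := C.eq_gu H hf (Sy.Dm C H hm hf hz)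
  have hη := C.back H hm hf (z := z) (by linarith [hz.1, C.rr_pos H hm])
  have h0 := bas_ne0 hη.1
  have hz' : C.gu f (C.ge f z).2 z.1 ∈ C.dm f f' := h1.symm ▸ hz
  have h2 := C.Tf_gu H hm hf hf' hη hz'
  have d1 := ((C.contDiffAt_Tf H hm hf hf' hz').differentiableAt (by simp)).hasFDerivAt.comp z.1
    (Sy.d_gu C H h0 f z.1)
  have d2 := (Sy.d_gu C H h0 f' _).comp z.1
    ((C.contDiffAt_lf H hm (hf.fp C) (hf'.fp C) hη h2.2.1).differentiableAt (by simp)).hasFDerivAt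
  have h3 := DFunLike.congr_fun (d1.unique (d2.congr_of_eventuallyEq
    (((Sy.d_gu C H h0 f z.1).continuousAt.eventually ((C.isOpen_dm H hm hf hf').mem_nhds hz')).mono
      fun _ h => (C.Tf_gu H hm hf hf' hη h).1))) e
  have h4 := congrArg Prod.fst h2.1
  rw [h1] at h3 h4
  rw [Su, Su, (C.Tf_spec H hm hf' hz).2, h4]
  exact h3

lemma Sy.fl_gs (hξ : C.Fw f ξ) (hz : C.gs f ξ q ∈ C.dm f f') :
    fl G ((C.pr (C.hy f q), C.W ξ (C.hy f q)), C.tm f f' (C.gs f ξ q)) =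
      (C.pr (C.hy f' (C.lf f f' ξ q)), C.W ξ (C.hy f' (C.lf f f' ξ q))) := by
  have h1 := Sy.fl_eq C H hm hf hf' hz
  obtain ⟨h2, h3, h4, -⟩ := C.Tf_gs H hm hf hf' hξ hz
  rwa [(C.ge_gs H hm hf hξ (Sy.le1 C H hm hz)).2.1, h2,
    (C.ge_gs H hm hf' h3 (by linarith [C.rr_pos H hm])).2.1] at h1

/-- the leaf map is the stable Jacobi tensor (`fderiv_W'`, `H.fderiv_fl_vec`) -/
lemma Bs_lf (hξ : C.Fw f ξ) (hz : C.gs f ξ q ∈ C.dm f f') (e : Euc m) :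
    C.Bs f' ξ (C.lf f f' ξ q) (fderiv ℝ (C.lf f f' ξ) q e) =
      PT G (C.pr (C.hy f q), C.W ξ (C.hy f q)) (C.tm f f' (C.gs f ξ q))
        (Js G (C.pr (C.hy f q), C.W ξ (C.hy f q)) (C.tm f f' (C.gs f ξ q)) (C.Bs f ξ q e)) := by
  have h0 := bas_ne0 hξ.1
  have hQ : (C.pr (C.hy f q), C.W ξ (C.hy f q)) ∈ US G := C.un_W H.a_pos h0 _
  have hU := N221.H.isU (G := G) H
  have d1 := (Sy.dQ C H hf (Sy.Dm C H hm hf hz)).snd.comp q (Sy.d_gs C H h0 f q)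
  have d2 := ((C.contDiff_W H horT h0).differentiable (by simp) _).hasFDerivAt.comp q
    ((C.contDiff_hy' f).differentiable (by simp) q).hasFDerivAt
  have h1 : fderiv ℝ (C.uv f) (C.gs f ξ q) (e, C.HH f ξ q e) =
      fderiv ℝ (C.W ξ) (C.hy f q) (fderiv ℝ (C.hy f) q e) :=
    DFunLike.congr_fun (d1.unique (d2.congr_of_eventuallyEq ((C.ev_gs H hm hf hf' hξ hz).mono
      fun _ h => (C.ge_gs H hm hf hξ (Sy.le1 C H hm h)).2.1))) e
  have h2 := Sy.d_fl C H hm hf hf' hz (e, C.HH f ξ q e)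
  have h3 : fderiv ℝ C.pr (C.hy f q) (fderiv ℝ (C.hy f) q e) = C.Jh f q e := by rw [Jh_eq]; rfl
  have h4 : C.Jh f q e = C.Bs f ξ q e + ⟪C.pq f ξ q, e⟫ • C.W ξ (C.hy f q) := by
    rw [C.Bs_apply H h0, sub_add_cancel]
  have h5 := Pv_of_mem hQ.1 (C.Bs_mem H h0 f q e)
  have h6 : (C.Jh f q e, fderiv ℝ (C.uv f) (C.gs f ξ q) (e, C.HH f ξ q e)) =
      N221.H.vs G (C.pr (C.hy f q), C.W ξ (C.hy f q)) (C.Bs f ξ q e) +
        N221.H.iot G (C.pr (C.hy f q), C.W ξ (C.hy f q)) (0, ⟪C.pq f ξ q, e⟫) := by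
    have h7 := N221.H.Um_vel hU hQ
    rw [h1, C.fderiv_W' H horT N221.H.dHorS h0, h3, h4]
    simp only [N221.H.vs_apply, N221.H.iot_apply, N221.H.X_eq, h5, map_zero, zero_add, map_add,
      map_smul, Prod.smul_mk, Prod.mk_add_mk] at h7 ⊢
    rw [h7, smul_zero, add_zero, sub_add_eq_add_sub]
  have h8 := fl_US hQ (C.tm f f' (C.gs f ξ q))
  rw [Sy.d_Tf_gs C H hm hf hf' hξ hz, (C.ge_gs H hm hf hξ (Sy.le1 C H hm hz)).2.1] at h2
  change C.Jh f' (C.lf f f' ξ q) (fderiv ℝ (C.lf f f' ξ) q e) = (fderiv ℝ (fl G)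
    ((C.pr (C.hy f q), C.W ξ (C.hy f q)), _) ((C.Jh f q e, _), _)).1 at h2
  rw [h6, N221.H.fderiv_fl_vec H hQ] at h2
  rw [Bs, ContinuousLinearMap.comp_apply, h2, ← Sy.fl_gs C H hm hf hf' hξ hz]
  simp only [N221.H.vs_apply, N221.H.iot_apply, N221.H.X_eq, map_zero, zero_add, map_add, map_smul,
    Prod.fst_add, Prod.smul_fst, N221.H.Pv_vel h8, smul_zero, add_zero, Pv_PT hQ.1,
    Pv_of_mem hQ.1 (N221.H.Js_mem H hQ _ _)]

omit hf hf' in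
/-- contraction rates -/
lemma norm_lf : ∃ b : ℝ, a ≤ b ∧ ∀ (f f' : FF n N m) (ξ : Euc n) (q e : Euc m), C.Frm f →
    C.Frm f' → C.Fw f ξ → C.gs f ξ q ∈ C.dm f f' →
    (0 ≤ C.tm f f' (C.gs f ξ q) →
      ‖fderiv ℝ (C.lf f f' ξ) q e‖ ≤ 8 * Real.exp (-(a * C.tm f f' (C.gs f ξ q))) * ‖e‖ ∧
      Real.exp (-(b * C.tm f f' (C.gs f ξ q))) * ‖e‖ ≤ 8 * ‖fderiv ℝ (C.lf f f' ξ) q e‖) ∧
    (C.tm f f' (C.gs f ξ q) ≤ 0 →
      ‖fderiv ℝ (C.lf f f' ξ) q e‖ ≤ 8 * Real.exp (-(b * C.tm f f' (C.gs f ξ q))) * ‖e‖ ∧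
      Real.exp (-(a * C.tm f f' (C.gs f ξ q))) * ‖e‖ ≤ 8 * ‖fderiv ℝ (C.lf f f' ξ) q e‖) := by
  obtain ⟨b, hab, hb⟩ := ju n N a S G H
  refine ⟨b, hab, fun f f' ξ q e hf hf' hξ hz => ?_⟩
  have h0 := bas_ne0 hξ.1
  have hQ : (C.pr (C.hy f q), C.W ξ (C.hy f q)) ∈ US G := C.un_W H.a_pos h0 _
  obtain ⟨-, h2, h3, -⟩ := C.Tf_gs H hm hf hf' hξ hz
  obtain ⟨k1, k2⟩ := C.Bs_bd H hm hf hξ (Sy.le1 C H hm hz) e
  obtain ⟨k3, k4⟩ := C.Bs_bd H hm hf' h2 (q := C.lf f f' ξ q) (by linarith [C.rr_pos H hm])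
    (fderiv ℝ (C.lf f f' ξ) q e)
  have h5 := Pv_of_mem hQ.1 (C.Bs_mem H h0 f q e)
  have h6 := fun s t => (hb _ (rev_US hQ)).2.2.2.2.2.1 s t (C.Bs f ξ q e)
  rw [C.Bs_lf H hm hf hf' hξ hz, norm_PT hQ.1, (hb _ hQ).2.2.2.1] at k3 k4
  generalize C.tm f f' (C.gs f ξ q) = t at k3 k4
  have h7 := h6 (-t) 0
  have h8 := h6 0 (-t)
  rw [Ju_zero, Pv_rev, h5] at h7 h8
  generalize ‖Ju G _ (-t) (C.Bs f ξ q e)‖ = r at k3 k4 h7 h8
  have up : ∀ c : ℝ, r ≤ Real.exp c * ‖C.Bs f ξ q e‖ →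
      ‖fderiv ℝ (C.lf f f' ξ) q e‖ ≤ 8 * Real.exp c * ‖e‖ := fun c h => by
    linarith [mul_le_mul_of_nonneg_left k2 (Real.exp_pos c).le]
  have lo : ∀ c : ℝ, Real.exp c * ‖C.Bs f ξ q e‖ ≤ r →
      Real.exp c * ‖e‖ ≤ 8 * ‖fderiv ℝ (C.lf f f' ξ) q e‖ := fun c h => by
    linarith [mul_le_mul_of_nonneg_left k1 (Real.exp_pos c).le]
  refine ⟨fun ht => ⟨up _ ?_, lo _ ?_⟩, fun ht => ⟨up _ ?_, lo _ ?_⟩⟩
  · have := (h7 (by linarith)).1
    rwa [zero_sub, neg_neg, ← le_div_iff₀' (Real.exp_pos _), div_eq_inv_mul, ← Real.exp_neg] at this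
  · have := (h7 (by linarith)).2
    rwa [zero_sub, neg_neg, ← div_le_iff₀' (Real.exp_pos _), div_eq_inv_mul, ← Real.exp_neg] at this
  · simpa only [sub_zero, mul_neg] using (h8 (by linarith)).2
  · simpa only [sub_zero, mul_neg] using (h8 (by linarith)).1

/-- THE JACOBIAN IDENTITY (`det_gram_conj` for `E = (Js + 1 - Pv)* (Js + 1 - Pv)`, `ju`) -/
lemma abs_det_lf {h c : ℝ} {α : TT N → ℝ} (hc : Co G h α c) (hξ : C.Fw f ξ)
    (hz : C.gs f ξ q ∈ C.dm f f') :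
    |(fderiv ℝ (C.lf f f' ξ) q).det| = Real.exp (-(h * C.tm f f' (C.gs f ξ q)) +
      C.aa α c f ξ q - C.aa α c f' ξ (C.lf f f' ξ q)) := by
  obtain ⟨b, -, hb⟩ := ju n N a S G H
  have h0 := bas_ne0 hξ.1
  have hQ : (C.pr (C.hy f q), C.W ξ (C.hy f q)) ∈ US G := C.un_W H.a_pos h0 _
  have hU := N221.H.isU (G := G) H
  obtain ⟨-, h2, h3, -⟩ := C.Tf_gs H hm hf hf' hξ hz
  have h3' : ‖C.lf f f' ξ q‖ ≤ 2 * C.rr m := by linarith [C.rr_pos H hm]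
  have inj : ∀ {f : FF n N m} {q}, C.Frm f → C.Fw f ξ → ‖q‖ ≤ 2 * C.rr m →
      Function.Injective (C.Bs f ξ q) := fun {f q} hf hξ hq =>
    (injective_iff_map_eq_zero _).2 fun e he => by
      simpa [he] using (C.Bs_bd H hm hf hξ hq e).1
  have hq := Sy.le1 C H hm hz
  have i1 := inj hf hξ hq
  have p1 := det_gram_pos i1
  have p2 := det_gram_pos (inj hf' h2 h3')
  have e1 := C.Bs_lf H hm hf hf' hξ hz
  have e2 := hc.cob _ (rev_US hQ) (-C.tm f f' (C.gs f ξ q))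
  have e3 := (hb _ (rev_US hQ)).2.2.2.2.2.2 (-C.tm f f' (C.gs f ξ q))
  rw [ph, fl_rev' hQ.1, neg_neg, Sy.fl_gs C H hm hf hf' hξ hz] at e2
  rw [← (hb _ hQ).2.2.2.1, Pv_rev] at e3
  have m1 := C.Bs_mem H h0 f q
  have sj := fun w => C.Bs_surj H hm hf h0 (q := q) (w := w)
    (by linarith [(C.rad H hm).side f hf ξ hξ q hq])
  rw [aa, aa, kq, kq]
  generalize C.tm f f' (C.gs f ξ q) = t at e1 e2 e3
  generalize (C.pr (C.hy f q), C.W ξ (C.hy f q)) = Q at hQ e1 e2 e3 m1 sj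
  generalize C.Bs f ξ q = B at i1 p1 e1 m1 sj
  generalize C.Bs f' ξ (C.lf f f' ξ q) = B' at p2 e1
  generalize fderiv ℝ (C.lf f f' ξ) q = D at e1
  obtain ⟨M, hM⟩ : ∃ M, M = Js G Q t + (ContinuousLinearMap.id ℝ (Euc N) - Pv G Q) := ⟨_, rfl⟩
  rw [← hM] at e3
  have hM' : ∀ w, M w = Js G Q t w + (w - Pv G Q w) := fun w => by rw [hM]; rfl
  have j1 : ∀ w, Js G Q t (Pv G Q w) = Js G Q t w := fun w => by
    simp only [Js_apply, Pv_Pv hQ, N221.H.Um_Pv hU hQ]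
  have j2 : ∀ w, Pv G Q (Js G Q t w) = Js G Q t w := fun w =>
    Pv_of_mem hQ.1 (N221.H.Js_mem H hQ t w)
  have e4 := det_gram_conj i1 (E := M.adjoint ∘L M) fun w => by
    have : Pv G Q ((M.adjoint ∘L M) w - w) = (M.adjoint ∘L M) w - w :=
      ext_inner_right ℝ fun x => by
        rw [← sub_eq_zero, inner_Pv hQ.1, ← inner_sub_right, inner_sub_left,
          ContinuousLinearMap.comp_apply, ContinuousLinearMap.adjoint_inner_left, hM' (_ - _),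
          map_sub, map_sub, j1, Pv_Pv hQ, sub_self, sub_self, zero_add, sub_zero, hM']
        simp only [inner_sub_right, ← inner_Pv hQ.1, map_add, map_sub, j2, Pv_Pv hQ, inner_add_left,
          inner_sub_left]
        ring
    exact (sj _ (this ▸ Pv_mem hQ.1 hQ.2 _)).imp fun _ h => h.symm
  have e5 : B.adjoint ∘L (M.adjoint ∘L M) ∘L B = D.adjoint ∘L (B'.adjoint ∘L B') ∘L D := by
    ext1 e
    refine ext_inner_right ℝ fun e' => ?_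
    simp only [ContinuousLinearMap.comp_apply, ContinuousLinearMap.adjoint_inner_left, e1, hM',
      inner_PT hQ.1, Pv_of_mem hQ.1 (m1 _), sub_self, add_zero]
  rw [e5, UDn.det_comp, UDn.det_comp, UDn.det_comp M.adjoint, Sy.det_adj, Sy.det_adj, e3] at e4
  generalize (B.adjoint ∘L B).det = x at p1 e4
  generalize (B'.adjoint ∘L B').det = x' at p2 e4
  obtain ⟨x, rfl⟩ : ∃ y, Real.exp y = x := ⟨_, Real.exp_log p1⟩
  obtain ⟨x', rfl⟩ : ∃ y, Real.exp y = x' := ⟨_, Real.exp_log p2⟩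
  rw [← sq_eq_sq₀ (abs_nonneg _) (Real.exp_pos _).le, sq_abs, ← Real.exp_nat_mul, Real.log_exp,
    Real.log_exp]
  refine mul_right_cancel₀ p2.ne' ?_
  rw [sq, mul_assoc, mul_comm _ (Real.exp x'), e4, ← Real.exp_add, ← Real.exp_add, ← Real.exp_add]
  congr 1
  push_cast
  linarith

end Crest.Agent.N221.Cov
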