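import Crest.Agent.N221.Ch.Lin
import Crest.Agent.N221.H.Uniq_Mg

-- ▼ part N221/Ch/Frm
section

/-! Row 221, block Ch: frames, the transversal, its normal. -/

set_option autoImplicit false
set_option linter.unusedSectionVars false
set_option linter.unusedVariables false

open MeasureTheory Set Filter Topology Metric
open scoped ContDiff RealInnerProductSpace ENNReal
open Crest.GeometryTopology.Submanifold
open Crest.Agent.R241.DDefs Crest.Agent.R241.D2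
open Crest.Agent.R208.J Crest.Agent.R208.L

noncomputable section

namespace Crest.Agent.N221.Cov

variable {n N m : ℕ} {a : ℝ} {S : Set (Euc N)} {G : Geo n N (-(a ^ 2)) S} (C : Cov G)
variable {f f' f'' : FF n N m} {z z' : ZZ m} {x y y' ξ η : Euc n} {v u u' : Euc N} {q q' : Euc m}
  {g : Euc n → Euc n} {s t : ℝ}

/-! ### frames -/

lemma exists_frm (hm : m + 1 = n) (hv : C.Un x v) :
    ∃ L : Euc m →L[ℝ] Euc N, C.Frm (x, v, L) := by
  obtain ⟨b⟩ := exists_basis (G := G) (q := (C.pr x, v)) hm hv.1 hv.2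
  exact ⟨(Vp G (C.pr x, v)).subtypeL ∘L b.repr.symm.toContinuousLinearEquiv.toContinuousLinearMap,
    hv, fun e => b.repr.symm.norm_map e, fun e => (b.repr.symm e).2⟩

lemma Frm.inj (hf : C.Frm f) : Function.Injective f.2.2 := fun e e' h => by
  have h1 := hf.iso (e - e')
  rw [map_sub, h, sub_self, norm_zero] at h1
  exact sub_eq_zero.1 (norm_eq_zero.1 h1.symm)

lemma Frm.tan (hf : C.Frm f) (e : Euc m) : f.2.2 e ∈ G.T (C.pr f.1) := (mem_Vp.1 (hf.mem e)).1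

lemma Frm.adj_self (hf : C.Frm f) (e : Euc m) : f.2.2.adjoint (f.2.2 e) = e :=
  ext_inner_right ℝ fun e' => by
    rw [ContinuousLinearMap.adjoint_inner_left]
    exact (LinearIsometry.mk f.2.2.toLinearMap hf.iso).inner_map_map e e'

lemma Frm.self_adj (hf : C.Frm f) (hm : m + 1 = n) {w : Euc N}
    (hw : w ∈ Vp G (C.pr f.1, f.2.1)) : f.2.2 (f.2.2.adjoint w) = w := by
  have h1 := finrank_Vp (G := G) (q := (C.pr f.1, f.2.1)) hf.un.1 hf.un.2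
  obtain ⟨e, rfl⟩ := surj_of_finrank (Frm.inj C hf) hf.mem (by omega) hw
  rw [Frm.adj_self C hf]

lemma Frm.fp (hf : C.Frm f) : C.Frm (fp f) :=
  ⟨Un.neg C hf.un, hf.iso, fun e => (Vp_rev (G := G) (C.pr f.1, f.2.1)).ge (hf.mem e)⟩

lemma fp_fp (f : FF n N m) : fp (fp f) = f := by simp [fp]

lemma Frm.fg (hf : C.Frm f) (hg : C.Deck g) : C.Frm (fg g f) :=
  ⟨(Deck.un C hg).2 hf.un, hf.iso, fun e => by
    show f.2.2 e ∈ Vp G (C.pr (g f.1), f.2.1)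
    rw [hg.pr_eq]
    exact hf.mem e⟩

lemma Frm.fw (hf : C.Frm f) (t : ℝ) : C.Frm (C.fw f t) :=
  ⟨Un.vel C hf.un t, fun e => (norm_PT hf.un.1 t _).trans (hf.iso e), fun e => by
    show PT G (C.pr f.1, f.2.1) t (f.2.2 e) ∈
      Vp G (C.pr (C.gd f.1 f.2.1 t), C.vel f.1 f.2.1 t)
    rw [← C.up_gd hf.un.1.2]
    exact (velocity_Vp hf.un.1 t).2 (hf.mem e)⟩

lemma fw_zero (f : FF n N m) : C.fw f 0 = f := by
  rw [fw, gd_zero, vel_zero, PT_zero, ContinuousLinearMap.id_comp]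

lemma fw_add (hf : C.Frm f) (s t : ℝ) : C.fw (C.fw f s) t = C.fw f (s + t) := by
  refine Prod.ext (C.gd_add hf.un.1.2 s t) (Prod.ext (C.vel_add hf.un.1.2 s t) ?_)
  ext1 e
  show PT G (C.pr (C.gd f.1 f.2.1 s), C.vel f.1 f.2.1 s) t (PT G (C.pr f.1, f.2.1) s (f.2.2 e)) =
    PT G (C.pr f.1, f.2.1) (s + t) (f.2.2 e)
  rw [← C.up_gd hf.un.1.2, PT_add hf.un.1]



lemma ov_fw (f : FF n N m) (t : ℝ) : C.Ov f (C.fw f t) t := ⟨rfl, rfl⟩

lemma Ov.symm (hf : C.Frm f) (h : C.Ov f f' t) : C.Ov f' f (-t) := by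
  constructor
  · rw [h.1, h.2, C.gd_add hf.un.1.2, add_neg_cancel, gd_zero]
  · rw [h.1, h.2, C.vel_add hf.un.1.2, add_neg_cancel, vel_zero]

lemma Ov.trans (hf : C.Frm f) (h : C.Ov f f' s) (h' : C.Ov f' f'' t) : C.Ov f f'' (s + t) := by
  constructor
  · rw [h'.1, h.1, h.2, C.gd_add hf.un.1.2]
  · rw [h'.2, h.1, h.2, C.vel_add hf.un.1.2]

lemma Ov.fp (hf : C.Frm f) (h : C.Ov f f' t) : C.Ov (fp f) (fp f') (-t) := by
  constructor
  · show f'.1 = C.gd f.1 (-f.2.1) (-t)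
    rw [gd_neg, neg_neg, h.1]
  · show -f'.2.1 = C.vel f.1 (-f.2.1) (-t)
    rw [C.vel_neg hf.un.1.2, neg_neg, h.2]

lemma Ov.dd (hf : C.Frm f) (h : C.Ov f f' t) : C.dd f.1 f'.1 = |t| := by
  rw [h.1, Un.dd_gd_zero C hf.un]



lemma isClosed_frm : IsClosed {f : FF n N m | C.Frm f} := by
  have hp : Continuous fun f : FF n N m => C.pr f.1 := C.pr_smooth.continuous.comp continuous_fst
  have hP : Continuous fun f : FF n N m => G.P (C.pr f.1) := G.contDiff_P.continuous.comp hp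
  have e : {f : FF n N m | C.Frm f} = ({f | G.P (C.pr f.1) f.2.1 = f.2.1} ∩ {f | ‖f.2.1‖ = 1}) ∩
      ⋂ e, ({f | ‖f.2.2 e‖ = ‖e‖} ∩ ({f | G.P (C.pr f.1) (f.2.2 e) = f.2.2 e} ∩
        {f | ⟪f.2.2 e, f.2.1⟫ = 0})) := by
    ext f
    simp only [mem_ofPred_eq, mem_inter_iff, mem_iInter, ← P_eq_self G (C.pr_mem _)]
    exact ⟨fun h => ⟨⟨h.un.1.2, h.un.2⟩, fun e => ⟨h.iso e, mem_Vp.1 (h.mem e)⟩⟩,
      fun h => ⟨⟨⟨C.pr_mem _, h.1.1⟩, h.1.2⟩, fun e => (h.2 e).1, fun e => mem_Vp.2 (h.2 e).2⟩⟩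
  rw [e]
  exact ((isClosed_eq (hP.clm_apply (by fun_prop)) (by fun_prop)).inter
    (isClosed_eq (by fun_prop) continuous_const)).inter (isClosed_iInter fun e =>
      (isClosed_eq (by fun_prop) continuous_const).inter
        ((isClosed_eq (hP.clm_apply (by fun_prop)) (by fun_prop)).inter
          (isClosed_eq (by fun_prop) continuous_const)))

lemma isCompact_frm (D : ℝ) : IsCompact {f : FF n N m | C.Frm f ∧ ‖f.1‖ ≤ D} := by
  refine Metric.isCompact_of_isClosed_isBounded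
    (C.isClosed_frm.inter (isClosed_le continuous_fst.norm continuous_const))
    ((isBounded_closedBall (x := (0 : FF n N m)) (r := max D 1)).subset fun f hf => ?_)
  rw [mem_closedBall_zero_iff, Prod.norm_def, Prod.norm_def]
  refine max_le_max hf.2 (max_le hf.1.un.2.le ?_)
  exact ContinuousLinearMap.opNorm_le_bound _ zero_le_one fun e => by rw [hf.1.iso, one_mul]

/-! ### the transversal -/

lemma contDiff_hy : ContDiff ℝ ∞ fun k : FF n N m × Euc m => C.hy k.1 k.2 :=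
  C.ex_smooth.comp (f := fun k : FF n N m × Euc m => (k.1.1, k.1.2.2 k.2)) (by fun_prop)

lemma contDiff_hy' (f : FF n N m) : ContDiff ℝ ∞ (C.hy f) :=
  C.contDiff_hy.comp (f := fun q : Euc m => (f, q)) (by fun_prop)

lemma contDiff_Jh : ContDiff ℝ ∞ fun k : FF n N m × Euc m => C.Jh k.1 k.2 :=
  ContDiff.fderiv (f := fun (k : FF n N m × Euc m) (q : Euc m) => C.pr (C.hy k.1 q))
    (C.pr_smooth.comp (C.contDiff_hy.comp
      (f := fun w : (FF n N m × Euc m) × Euc m => (w.1.1, w.2)) (by fun_prop)))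
    contDiff_snd (by simp)

lemma contDiff_Jh' (f : FF n N m) : ContDiff ℝ ∞ (C.Jh f) :=
  C.contDiff_Jh.comp (f := fun q : Euc m => (f, q)) (by fun_prop)

lemma Jh_eq (f : FF n N m) (q : Euc m) :
    C.Jh f q = fderiv ℝ C.pr (C.hy f q) ∘L fderiv ℝ (C.hy f) q :=
  fderiv_comp q (C.diff_pr _) ((C.contDiff_hy' f).differentiable (by simp) q)

lemma hasFDerivAt_pr_hy (f : FF n N m) (q : Euc m) :
    HasFDerivAt (fun q => C.pr (C.hy f q)) (C.Jh f q) q :=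
  ((C.diff_pr _).comp q ((C.contDiff_hy' f).differentiable (by simp) q)).hasFDerivAt

lemma hy_zero (f : FF n N m) : C.hy f 0 = f.1 := by rw [hy, map_zero, C.ex_zero]

lemma lg_hy (hf : C.Frm f) (q : Euc m) : C.lg f.1 (C.hy f q) = f.2.2 q :=
  C.lg_ex _ _ (Frm.tan C hf q)

lemma dd_hy (hf : C.Frm f) (q : Euc m) : C.dd f.1 (C.hy f q) = ‖q‖ := by
  rw [dd, C.lg_hy hf, hf.iso]

lemma adj_lg_hy (hf : C.Frm f) (q : Euc m) : f.2.2.adjoint (C.lg f.1 (C.hy f q)) = q := by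
  rw [C.lg_hy hf, Frm.adj_self C hf]

lemma hy_inj (hf : C.Frm f) : Function.Injective (C.hy f) := fun q q' h => by
  rw [← C.adj_lg_hy hf q, h, C.adj_lg_hy hf]

lemma inner_lg_hy (hf : C.Frm f) (q : Euc m) : ⟪C.lg f.1 (C.hy f q), f.2.1⟫ = 0 := by
  rw [C.lg_hy hf]
  exact (mem_Vp.1 (hf.mem q)).2

lemma eq_hy (hf : C.Frm f) (hm : m + 1 = n) (h : ⟪C.lg f.1 y, f.2.1⟫ = 0) :
    C.hy f (f.2.2.adjoint (C.lg f.1 y)) = y := by
  rw [hy, Frm.self_adj C hf hm (mem_Vp.2 ⟨C.lg_mem _ _, h⟩), C.ex_lg]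

lemma Jh_mem (f : FF n N m) (q e : Euc m) : C.Jh f q e ∈ G.T (C.pr (C.hy f q)) := by
  rw [Jh_eq]
  exact C.fderiv_pr_mem _ _

lemma fderiv_lg_hy (hf : C.Frm f) (q e : Euc m) :
    fderiv ℝ (C.lg f.1) (C.hy f q) (fderiv ℝ (C.hy f) q e) = f.2.2 e := by
  have h1 := ((C.contDiff_lg f.1).differentiable (by simp) _).hasFDerivAt.comp q
    ((C.contDiff_hy' f).differentiable (by simp) q).hasFDerivAt
  rw [show C.lg f.1 ∘ C.hy f = f.2.2 from funext (C.lg_hy hf)] at h1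
  exact congrArg (fun L : Euc m →L[ℝ] Euc N => L e) (h1.unique f.2.2.hasFDerivAt)

/-- `norm_fderiv_lg_le` and `lg_hy` -/
lemma le_Jh (ha : 0 < a) (hf : C.Frm f) (q e : Euc m) : ‖e‖ ≤ ‖C.Jh f q e‖ := by
  rw [← hf.iso, ← C.fderiv_lg_hy hf q e, Jh_eq]
  exact C.norm_fderiv_lg_le ha.le _ _ _

lemma Jh_inj (ha : 0 < a) (hf : C.Frm f) (q : Euc m) : Function.Injective (C.Jh f q) :=
  fun e e' h => by
  have h1 := C.le_Jh ha hf q (e - e')
  rw [map_sub, h, sub_self, norm_zero] at h1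
  exact sub_eq_zero.1 (norm_le_zero_iff.1 h1)

lemma Jh_zero (hf : C.Frm f) : C.Jh f 0 = f.2.2 := by
  have h1 : HasFDerivAt (Exp G (C.pr f.1)) (fderiv ℝ (Exp G (C.pr f.1)) 0) (f.2.2 0) := by
    rw [map_zero]
    exact ((Crest.Agent.R241.D3c.contDiffAt_Exp' G (C.pr_mem _)
      (G.T _).zero_mem).differentiableAt (by simp)).hasFDerivAt
  have h2 := h1.comp 0 f.2.2.hasFDerivAt
  have h3 : Exp G (C.pr f.1) ∘ f.2.2 = fun q => C.pr (C.hy f q) :=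
    funext fun q => (C.pr_ex _ _ (Frm.tan C hf q)).symm
  rw [h3] at h2
  rw [(C.hasFDerivAt_pr_hy f 0).unique h2]
  ext1 e
  exact Crest.Agent.R241.D3c.fderiv_Exp_zero G (C.pr_mem _) (Frm.tan C hf e)

/-- the second fundamental form of the transversal vanishes at the centre (symmetric, and
`t ↦ pr (hy f (t e))` is a geodesic) -/
lemma P_fderiv_Jh_zero (hf : C.Frm f) (e e' : Euc m) :
    G.P (C.pr f.1) (fderiv ℝ (C.Jh f) 0 e e') = 0 := by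
  have hd : ∀ e, G.P (C.pr f.1) (fderiv ℝ (C.Jh f) 0 e e) = 0 := by
    intro e
    have hq : (C.pr f.1, f.2.2 e) ∈ TS G := ⟨C.pr_mem _, Frm.tan C hf e⟩
    have hl : ∀ t : ℝ, HasDerivAt (fun t : ℝ => t • e) e t := fun t => by
      simpa using (hasDerivAt_id t).smul_const e
    have h1 : (fun t : ℝ => C.Jh f (t • e) e) = C.vel f.1 (f.2.2 e) := by
      funext t
      refine ((C.hasFDerivAt_pr_hy f (t • e)).comp_hasDerivAt t (hl t)).unique ?_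
      refine (C.hasDerivAt_pr_gd hq.2 t).congr_of_eventuallyEq (Eventually.of_forall fun s => ?_)
      show C.pr (C.ex f.1 (f.2.2 (s • e))) = C.pr (C.ex f.1 (s • f.2.2 e))
      rw [map_smul]
    have h2 : HasFDerivAt (C.Jh f) (fderiv ℝ (C.Jh f) 0) ((0 : ℝ) • e) := by
      rw [zero_smul]
      exact ((C.contDiff_Jh' f).differentiable (by simp) 0).hasFDerivAt
    have h3 : HasDerivAt (fun t : ℝ => C.Jh f (t • e) e) (fderiv ℝ (C.Jh f) 0 e e) 0 := by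
      have h := HasFDerivAt.comp_hasDerivAt (f := fun t : ℝ => t • e) (0 : ℝ) h2 (hl 0)
      exact (ContinuousLinearMap.apply ℝ (Euc N) e).hasFDerivAt.comp_hasDerivAt (0 : ℝ) h
    have h4 : HasDerivAt (C.vel f.1 (f.2.2 e)) (dP G (C.pr f.1, f.2.2 e) (f.2.2 e)) 0 := by
      have h := hda_snd (hasDerivAt_fl G (complete G hq 0))
      rwa [fl_zero] at h
    rw [h1] at h3
    rw [h3.unique h4]
    exact dP_tangent_normal hq hq.2
  have hs : fderiv ℝ (C.Jh f) 0 e' e = fderiv ℝ (C.Jh f) 0 e e' :=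
    ((C.pr_smooth.comp (C.contDiff_hy' f)).contDiffAt.isSymmSndFDerivAt
      (by rw [minSmoothness_of_isRCLikeNormedField]; exact WithTop.coe_le_coe.2 le_top)).eq e' e
  have h5 := hd (e + e')
  simp only [map_add, add_apply, hd e, hd e', hs, zero_add, add_zero] at h5
  rw [← two_smul ℝ] at h5
  exact (smul_eq_zero.1 h5).resolve_left two_ne_zero

/-! ### the normal -/

lemma eq_of_inner_pr (hu : u ∈ G.T (C.pr y)) (hu' : u' ∈ G.T (C.pr y))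
    (h : ∀ e, ⟪u, fderiv ℝ C.pr y e⟫ = ⟪u', fderiv ℝ C.pr y e⟫) : u = u' := by
  obtain ⟨e, he⟩ := C.fderiv_pr_surj y ((G.T _).sub_mem hu hu')
  have h1 := h e
  rw [← sub_eq_zero, ← inner_sub_left, he] at h1
  exact sub_eq_zero.1 (inner_self_eq_zero.1 h1)

lemma nr0_mem (f : FF n N m) (y : Euc n) : C.nr0 f y ∈ G.T (C.pr y) := C.fderiv_pr_mem _ _

lemma inner_nr0 (f : FF n N m) (y e : Euc n) :
    ⟪C.nr0 f y, fderiv ℝ C.pr y e⟫ = ⟪fderiv ℝ (C.lg f.1) y e, f.2.1⟫ := by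
  rw [nr0, ← ContinuousLinearMap.adjoint_inner_left, gram_gi (C.fderiv_pr_inj y),
    ContinuousLinearMap.adjoint_inner_left, real_inner_comm]

lemma contDiff_nr0 : ContDiff ℝ ∞ fun k : FF n N m × Euc n => C.nr0 k.1 k.2 := by
  have h1 : ContDiff ℝ ∞ fun k : FF n N m × Euc n => fderiv ℝ C.pr k.2 :=
    (C.pr_smooth.fderiv_right (by simp)).comp contDiff_snd
  have h2 : ContDiff ℝ ∞ fun k : FF n N m × Euc n => fderiv ℝ (C.lg k.1.1) k.2 :=
    ContDiff.fderiv (f := fun (k : FF n N m × Euc n) (y : Euc n) => C.lg k.1.1 y)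
      (C.lg_smooth.comp (f := fun w : (FF n N m × Euc n) × Euc n => (w.1.1.1, w.2)) (by fun_prop))
      contDiff_snd (by simp)
  have h3 : ContDiff ℝ ∞ fun k : FF n N m × Euc n => gi (fderiv ℝ C.pr k.2) :=
    contDiff_iff_contDiffAt.2 fun k =>
      ContDiffAt.comp (g := gi) (f := fun k : FF n N m × Euc n => fderiv ℝ C.pr k.2) k
        (contDiffAt_gi (C.fderiv_pr_inj k.2)) h1.contDiffAt
  exact h1.clm_apply (h3.clm_apply ((contDiff_adj.comp h2).clm_apply (by fun_prop)))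

/-- `D (lg x)` is onto `T` (differentiate `lg x (ex x w) = w` along `v`) -/
lemma nr0_ne (hf : C.Un f.1 f.2.1) (y : Euc n) : C.nr0 f y ≠ 0 := by
  intro h0
  have hl : HasDerivAt (fun t : ℝ => C.lg f.1 y + t • f.2.1) f.2.1 0 := by
    simpa using ((hasDerivAt_id (0 : ℝ)).smul_const f.2.1).const_add (C.lg f.1 y)
  have h1 := ((C.contDiff_ex f.1).differentiable (by simp) _).hasFDerivAt.comp_hasDerivAt
    (0 : ℝ) hl
  have h2 := ((C.contDiff_lg f.1).differentiable (by simp) _).hasFDerivAt.comp_hasDerivAt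
    (0 : ℝ) h1
  have h3 := h2.unique (hl.congr_of_eventuallyEq (Eventually.of_forall fun t =>
    C.lg_ex _ _ ((G.T _).add_mem (C.lg_mem _ _) ((G.T _).smul_mem t hf.1.2))))
  simp only [Function.comp, zero_smul, add_zero, C.ex_lg] at h3
  have h4 := C.inner_nr0 f y (fderiv ℝ (C.ex f.1) (C.lg f.1 y) f.2.1)
  rw [h0, h3, inner_zero_left, real_inner_self_eq_norm_sq, show ‖f.2.1‖ = 1 from hf.2] at h4
  norm_num at h4

lemma nr0_self (hf : C.Un f.1 f.2.1) : C.nr0 f f.1 = f.2.1 := by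
  refine C.eq_of_inner_pr (C.nr0_mem f _) hf.1.2 fun e => ?_
  have h1 := C.fderiv_Exp_lg f.1 f.1 e
  rw [lg_self, Crest.Agent.R241.D3c.fderiv_Exp_zero G (C.pr_mem _) h1.1] at h1
  rw [inner_nr0, h1.2, real_inner_comm]

/-- derivative of the defining function along a geodesic -/
lemma hasDerivAt_cross (f : FF n N m) (hu : u ∈ G.T (C.pr y)) (t : ℝ) :
    HasDerivAt (fun t => ⟪C.lg f.1 (C.gd y u t), f.2.1⟫) ⟪C.nr0 f (C.gd y u t), C.vel y u t⟫ t := by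
  have h1 := ((C.contDiff_lg f.1).differentiable (by simp) _).hasFDerivAt.comp_hasDerivAt t
    (C.hasDerivAt_gd y u t)
  rw [← C.fderiv_pr_deriv_gd hu, inner_nr0]
  simpa using h1.inner ℝ (hasDerivAt_const t f.2.1)

lemma un_nr (hf : C.Frm f) (q : Euc m) : C.Un (C.hy f q) (C.nr f q) :=
  ⟨⟨C.pr_mem _, (G.T _).smul_mem _ (C.nr0_mem f _)⟩, by
    show ‖C.nr f q‖ = 1
    rw [nr, norm_smul, norm_inv, norm_norm,
      inv_mul_cancel₀ (norm_ne_zero_iff.2 (C.nr0_ne hf.un _))]⟩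

lemma inner_nr_Jh (hf : C.Frm f) (q e : Euc m) : ⟪C.nr f q, C.Jh f q e⟫ = 0 := by
  rw [nr, real_inner_smul_left, Jh_eq, ContinuousLinearMap.comp_apply, inner_nr0,
    C.fderiv_lg_hy hf, (mem_Vp.1 (hf.mem e)).2, mul_zero]

lemma nr_zero (hf : C.Frm f) : C.nr f 0 = f.2.1 := by
  rw [nr, hy_zero, C.nr0_self hf.un, show ‖f.2.1‖ = 1 from hf.un.2, inv_one, one_smul]

lemma contDiffAt_nr (hf : C.Frm f) (q : Euc m) :
    ContDiffAt ℝ ∞ (fun k : FF n N m × Euc m => C.nr k.1 k.2) (f, q) := by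
  have h1 : ContDiff ℝ ∞ fun k : FF n N m × Euc m => C.nr0 k.1 (C.hy k.1 k.2) :=
    C.contDiff_nr0.comp (f := fun k : FF n N m × Euc m => (k.1, C.hy k.1 k.2))
      (contDiff_fst.prodMk C.contDiff_hy)
  have h2 := C.nr0_ne hf.un (C.hy f q)
  exact ((h1.contDiffAt.norm ℝ h2).inv (norm_ne_zero_iff.2 h2)).smul h1.contDiffAt

lemma decomp (ha : 0 < a) (hm : m + 1 = n) (hf : C.Frm f) (hu : u ∈ G.T (C.pr (C.hy f q))) :
    u = C.Jh f q (gi (C.Jh f q) ((C.Jh f q).adjoint u)) + ⟪u, C.nr f q⟫ • C.nr f q :=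
  decomp_normal (C.Jh_inj ha hf q) (C.Jh_mem f q) ((G.finrank_T _ (C.pr_mem _)).trans hm.symm)
    (C.un_nr hf q).1.2 (C.un_nr hf q).2 (C.inner_nr_Jh hf q) hu

/-! ### symmetries -/

lemma hy_fp (f : FF n N m) : C.hy (fp f) = C.hy f := rfl
lemma Jh_fp (f : FF n N m) : C.Jh (fp f) = C.Jh f := rfl
lemma nr_fp (f : FF n N m) (q : Euc m) : C.nr (fp f) q = -C.nr f q := by
  have h : ∀ y, C.nr0 (fp f) y = -C.nr0 f y := fun y => by
    simp only [nr0, fp, map_neg]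
  rw [nr, nr, h, norm_neg, smul_neg, hy_fp]

lemma hy_fg (hf : C.Frm f) (hg : C.Deck g) (q : Euc m) : C.hy (fg g f) q = g (C.hy f q) :=
  (hg.ex_eq _ _ (Frm.tan C hf q)).symm
lemma pr_hy_fg (hf : C.Frm f) (hg : C.Deck g) (q : Euc m) :
    C.pr (C.hy (fg g f) q) = C.pr (C.hy f q) := by rw [C.hy_fg hf hg, hg.pr_eq]
lemma Jh_fg (hf : C.Frm f) (hg : C.Deck g) : C.Jh (fg g f) = C.Jh f := by
  funext q
  simp only [Jh, C.pr_hy_fg hf hg]
lemma nr0_fg (hg : C.Deck g) (f : FF n N m) (y : Euc n) : C.nr0 (fg g f) (g y) = C.nr0 f y := by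
  have hd := (hg.smooth.differentiable (by simp) y).hasFDerivAt
  have h1 := (C.diff_pr (g y)).hasFDerivAt.comp y hd
  rw [show C.pr ∘ g = C.pr from funext hg.pr_eq] at h1
  have h2 := ((C.contDiff_lg (g f.1)).differentiable (by simp) (g y)).hasFDerivAt.comp y hd
  rw [show C.lg (g f.1) ∘ g = C.lg f.1 from funext (hg.lg_eq f.1)] at h2
  refine C.eq_of_inner_pr (hg.pr_eq y ▸ C.nr0_mem (fg g f) (g y)) (C.nr0_mem f y) fun e => ?_
  rw [C.inner_nr0 f, h1.fderiv, h2.fderiv, ContinuousLinearMap.comp_apply, inner_nr0]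
  rfl
lemma nr_fg (hf : C.Frm f) (hg : C.Deck g) : C.nr (fg g f) = C.nr f := by
  funext q
  rw [nr, nr, C.hy_fg hf hg, C.nr0_fg hg]

end Crest.Agent.N221.Cov
end
end

-- ▼ part N221/Ch/Bas
section

/-! Row 221, block Ch: the chart `ge`, the leaves as graphs, Hessians, the determinant identity. -/

set_option autoImplicit false
set_option linter.unusedSectionVars false
set_option linter.unusedVariables false

open MeasureTheory Set Filter Topology Metric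
open scoped ContDiff RealInnerProductSpace ENNReal
open Crest.GeometryTopology.Submanifold
open Crest.Agent.R241.DDefs Crest.Agent.R241.D2
open Crest.Agent.R208.J Crest.Agent.R208.L

noncomputable section

namespace Crest.Agent.N221.Cov

variable {n N m : ℕ} {a : ℝ} {S : Set (Euc N)} {G : Geo n N (-(a ^ 2)) S} (C : Cov G)
variable {f f' f'' : FF n N m} {z z' : ZZ m} {x y y' ξ η : Euc n} {v u u' : Euc N} {q q' : Euc m}
  {g : Euc n → Euc n} {s t : ℝ}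

lemma _root_.Crest.Agent.N221.horT : H.HorS := H.horS (H.irwS H.nemS H.hadS H.fixS)
lemma _root_.Crest.Agent.N221.cobT : H.CobHorS :=
  H.cobHorS H.nemS H.hadS H.dHorS (H.uniqS covS)
lemma _root_.Crest.Agent.N221.exists_co (H : Hyp n N a S) (h : Cob G) : ∃ h α c, Co G h α c := by
  obtain ⟨h, α, h1, h2⟩ := h
  obtain ⟨c, h3⟩ := N221.H.splitS sys volT N221.lps n N a S G H h α h1 h2
  exact ⟨h, α, c, h1, h2, h3⟩

variable (H : Hyp n N a S) (hm : m + 1 = n)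
include H

namespace ChB

omit H in
lemma cd_J : ContDiff ℝ ∞ fun k : FF n N m × ZZ m => C.Jh k.1 k.2.1 :=
  C.contDiff_Jh.comp (f := fun k : FF n N m × ZZ m => (k.1, k.2.1))
    (contDiff_fst.prodMk contDiff_snd.fst)

lemma cd_gi (hf : C.Frm f) (z : ZZ m) :
    ContDiffAt ℝ ∞ (fun k : FF n N m × ZZ m => gi (C.Jh k.1 k.2.1) k.2.2) (f, z) :=
  ((contDiffAt_gi (C.Jh_inj H.a_pos hf z.1)).comp
    (f := fun k : FF n N m × ZZ m => C.Jh k.1 k.2.1) (f, z) (cd_J C).contDiffAt).clm_apply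
    contDiffAt_snd.snd

lemma cd_in (hf : C.Frm f) (z : ZZ m) :
    ContDiffAt ℝ ∞ (fun k : FF n N m × ZZ m => ⟪k.2.2, gi (C.Jh k.1 k.2.1) k.2.2⟫) (f, z) :=
  contDiffAt_snd.snd.inner ℝ (cd_gi C H hf z)

omit H in
lemma norm_sq (hf : C.Frm f) (q e : Euc m) (c : ℝ) :
    ‖C.Jh f q e + c • C.nr f q‖ ^ 2 = ‖C.Jh f q e‖ ^ 2 + c ^ 2 := by
  rw [norm_add_sq_real, real_inner_smul_right, real_inner_comm, C.inner_nr_Jh hf, norm_smul,
    (C.un_nr hf q).norm, Real.norm_eq_abs, mul_one, sq_abs]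
  ring

omit H in
lemma adj_nr (hf : C.Frm f) (q : Euc m) : (C.Jh f q).adjoint (C.nr f q) = 0 :=
  ext_inner_right ℝ fun e => by
    rw [ContinuousLinearMap.adjoint_inner_left, C.inner_nr_Jh hf, inner_zero_left]

omit H in
lemma key {W ν w : Euc N} (hW : ‖W‖ = 1) (hν : ‖ν‖ = 1) (h : ⟪ν, w⟫ = 0) :
    |⟪W, ν⟫| * ‖w‖ ≤ ‖w - ⟪W, w⟫ • W‖ := by
  have h1 : ‖W - ⟪W, ν⟫ • ν‖ ^ 2 = 1 - ⟪W, ν⟫ ^ 2 := by
    rw [norm_sub_sq_real, real_inner_smul_right, norm_smul, hW, hν, Real.norm_eq_abs, mul_one,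
      sq_abs]
    ring
  have h2 : ‖w - ⟪W, w⟫ • W‖ ^ 2 = ‖w‖ ^ 2 - ⟪W, w⟫ ^ 2 := by
    rw [norm_sub_sq_real, real_inner_smul_right, norm_smul, hW, Real.norm_eq_abs, mul_one, sq_abs,
      real_inner_comm W w]
    ring
  have h3 := pow_le_pow_left₀ (abs_nonneg _) (abs_real_inner_le_norm (W - ⟪W, ν⟫ • ν) w) 2
  rw [inner_sub_left, real_inner_smul_left, h, mul_zero, sub_zero, sq_abs, mul_pow, h1] at h3
  refine le_of_sq_le_sq ?_ (norm_nonneg _)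
  rw [h2, mul_pow, sq_abs]
  linarith

end ChB

/-! ### the unit vector `uv` -/

lemma mem_Dm (hf : C.Frm f) (hz : ‖z.2‖ < 1) : z ∈ C.Dm f := by
  have h := inner_gi_le (C.le_Jh H.a_pos hf z.1) z.2
  have h0 := norm_nonneg z.2
  show ⟪z.2, gi (C.Jh f z.1) z.2⟫ < 1
  nlinarith

lemma isOpen_Dm (hf : C.Frm f) : IsOpen (C.Dm f) := by
  refine isOpen_iff_mem_nhds.2 fun z hz => ?_
  have h := (ChB.cd_in C H hf z).continuousAt.comp (f := fun z : ZZ m => (f, z))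
    (Continuous.prodMk_right f).continuousAt
  exact h.eventually (gt_mem_nhds hz)

lemma ev_Dm (hf : C.Frm f) (hz : z ∈ C.Dm f) :
    ∀ᶠ k : FF n N m × ZZ m in 𝓝 (f, z), k.2 ∈ C.Dm k.1 :=
  (ChB.cd_in C H hf z).continuousAt.eventually (gt_mem_nhds hz)

lemma un_uv (hf : C.Frm f) (hz : z ∈ C.Dm f) : C.Un (C.hy f z.1) (C.uv f z) := by
  have hν := C.un_nr hf z.1
  refine ⟨⟨C.pr_mem _, Submodule.add_mem _ (C.Jh_mem _ _ _) (Submodule.smul_mem _ _ hν.mem)⟩, ?_⟩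
  have h1 : 0 ≤ 1 - ⟪z.2, gi (C.Jh f z.1) z.2⟫ := sub_nonneg.2 (le_of_lt hz)
  have h2 : ‖C.uv f z‖ ^ 2 = 1 := by
    rw [uv, ChB.norm_sq C hf, Real.sq_sqrt h1, inner_gi (C.Jh_inj H.a_pos hf z.1),
      real_inner_self_eq_norm_sq]
    ring
  exact (pow_eq_one_iff_of_nonneg (norm_nonneg _) two_ne_zero).1 h2

lemma adj_uv (hf : C.Frm f) (z : ZZ m) : (C.Jh f z.1).adjoint (C.uv f z) = z.2 := by
  rw [uv, map_add, map_smul, gram_gi (C.Jh_inj H.a_pos hf z.1), ChB.adj_nr C hf, smul_zero,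
    add_zero]

lemma inner_uv_nr (hf : C.Frm f) (z : ZZ m) :
    ⟪C.uv f z, C.nr f z.1⟫ = √(1 - ⟪z.2, gi (C.Jh f z.1) z.2⟫) := by
  rw [uv, inner_add_left, real_inner_smul_left, real_inner_comm, C.inner_nr_Jh hf,
    real_inner_self_eq_norm_sq, (C.un_nr hf z.1).norm]
  ring

lemma uv_side (hf : C.Frm f) (hz : z ∈ C.Dm f) : 0 < ⟪C.uv f z, C.nr f z.1⟫ := by
  rw [C.inner_uv_nr H hf]
  exact Real.sqrt_pos.2 (sub_pos.2 hz)

lemma uv_zero (hf : C.Frm f) : C.uv f 0 = f.2.1 := by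
  simp [uv, C.nr_zero hf]

lemma contDiffAt_uv (hf : C.Frm f) (hz : z ∈ C.Dm f) :
    ContDiffAt ℝ ∞ (fun k : FF n N m × ZZ m => C.uv k.1 k.2) (f, z) := by
  have h1 : ContDiffAt ℝ ∞ (fun k : FF n N m × ZZ m => C.nr k.1 k.2.1) (f, z) :=
    (C.contDiffAt_nr hf z.1).comp (f := fun k : FF n N m × ZZ m => (k.1, k.2.1)) (f, z)
      (contDiffAt_fst.prodMk contDiffAt_snd.fst)
  exact ((ChB.cd_J C).contDiffAt.clm_apply (ChB.cd_gi C H hf z)).add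
    (((contDiffAt_const.sub (ChB.cd_in C H hf z)).sqrt (sub_pos.2 hz).ne').smul h1)

include hm in
lemma uv_eq (hf : C.Frm f) (hu : C.Un (C.hy f q) u) (h : 0 < ⟪u, C.nr f q⟫) :
    (q, (C.Jh f q).adjoint u) ∈ C.Dm f ∧ C.uv f (q, (C.Jh f q).adjoint u) = u := by
  have hd := C.decomp H.a_pos hm hf hu.mem
  have h1 : (1 : ℝ) - ⟪(C.Jh f q).adjoint u, gi (C.Jh f q) ((C.Jh f q).adjoint u)⟫ =
      ⟪u, C.nr f q⟫ ^ 2 := by
    have h2 := ChB.norm_sq C hf q (gi (C.Jh f q) ((C.Jh f q).adjoint u)) ⟪u, C.nr f q⟫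
    rw [← hd, hu.norm] at h2
    rw [inner_gi (C.Jh_inj H.a_pos hf q), real_inner_self_eq_norm_sq]
    linarith
  refine ⟨?_, ?_⟩
  · show ⟪(C.Jh f q).adjoint u, gi (C.Jh f q) ((C.Jh f q).adjoint u)⟫ < 1
    have := pow_pos h 2
    linarith
  · rw [uv]
    simp only
    rw [h1, Real.sqrt_sq h.le, ← hd]

/-! ### the end points -/

lemma ge_GG (hf : C.Frm f) (hz : z ∈ C.Dm f) : C.ge f z ∈ GG n :=
  C.ep_GG H.a_pos (C.un_uv H hf hz)

lemma ge_zero (hf : C.Frm f) : C.ge f 0 = (C.ep f.1 f.2.1, C.ep f.1 (-f.2.1)) := by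
  rw [ge, C.uv_zero H hf, Prod.fst_zero, C.hy_zero]

lemma W_ge (hf : C.Frm f) (hz : z ∈ C.Dm f) : C.W (C.ge f z).1 (C.hy f z.1) = C.uv f z :=
  C.W_ep_self H.a_pos (C.un_uv H hf hz)

lemma W_ge' (hf : C.Frm f) (hz : z ∈ C.Dm f) : C.W (C.ge f z).2 (C.hy f z.1) = -C.uv f z :=
  C.W_ep_self H.a_pos (C.un_uv H hf hz).neg

lemma continuousOn_ge : ContinuousOn (fun k : FF n N m × ZZ m => C.ge k.1 k.2)
    {k | C.Frm k.1 ∧ k.2 ∈ C.Dm k.1} := by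
  have h1 : Continuous fun k : FF n N m × ZZ m => C.hy k.1 k.2.1 :=
    C.contDiff_hy.continuous.comp (f := fun k : FF n N m × ZZ m => (k.1, k.2.1))
      (continuous_fst.prodMk continuous_snd.fst)
  have h2 : ContinuousOn (fun k : FF n N m × ZZ m => C.uv k.1 k.2)
      {k | C.Frm k.1 ∧ k.2 ∈ C.Dm k.1} := fun k hk =>
    (C.contDiffAt_uv H hk.1 hk.2).continuousAt.continuousWithinAt
  have h3 := (C.continuousOn_ep H.a_pos).comp
    (f := fun k : FF n N m × ZZ m => (C.hy k.1 k.2.1, C.uv k.1 k.2)) (h1.continuousOn.prodMk h2)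
    fun k hk => C.un_uv H hk.1 hk.2
  have h4 := (C.continuousOn_ep H.a_pos).comp
    (f := fun k : FF n N m × ZZ m => (C.hy k.1 k.2.1, -C.uv k.1 k.2))
    (h1.continuousOn.prodMk h2.neg) fun k hk => (C.un_uv H hk.1 hk.2).neg
  exact h3.prodMk h4

include hm in
lemma exists_ge_zero (h : (ξ, η) ∈ GG n) (s : ℝ) :
    ∃ f : FF n N m, C.Frm f ∧ f.1 = C.ft ξ η s ∧ C.ge f 0 = (ξ, η) := by
  obtain ⟨L, hL⟩ := C.exists_frm hm (C.un_W H.a_pos (bas_ne0 h.1) (C.ft ξ η s))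
  refine ⟨_, hL, rfl, ?_⟩
  rw [C.ge_zero H hL]
  exact Prod.ext (C.ep_ft H.a_pos h s).1 (C.ep_ft H.a_pos h s).2

/-- unit vectors with the same end points lie on one geodesic (`ft_ep`, `gd_ft`, `vel_ft`) -/
lemma same_geod (hu : C.Un y u) (hu' : C.Un y' u') (h1 : C.ep y u = C.ep y' u')
    (h2 : C.ep y (-u) = C.ep y' (-u')) :
    y' = C.gd y u (C.b (C.ep y u) y - C.b (C.ep y u) y') ∧
      u' = C.vel y u (C.b (C.ep y u) y - C.b (C.ep y u) y') := by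
  have hG := GG_sub (C.ep_GG H.a_pos hu)
  have e := C.ft_ep H.a_pos hu
  have e' := C.ft_ep H.a_pos hu'
  rw [← h1, ← h2] at e'
  have w := C.W_ep_self H.a_pos hu
  have w' := C.W_ep_self H.a_pos hu'
  rw [← h1] at w'
  have k := C.gd_ft H.a_pos hG (-C.b (C.ep y u) y) (C.b (C.ep y u) y - C.b (C.ep y u) y')
  have k' := C.vel_ft H.a_pos hG (-C.b (C.ep y u) y) (C.b (C.ep y u) y - C.b (C.ep y u) y')
  rw [e, w, neg_add_eq_sub, sub_sub_cancel_left, e'] at k k'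
  exact ⟨k.symm, by rw [k', w']⟩

lemma ge_of_gd (hu : C.Un y u) (h1 : C.hy f z.1 = C.gd y u t) (h2 : C.uv f z = C.vel y u t) :
    C.ge f z = (C.ep y u, C.ep y (-u)) ∧ C.b (C.ep y u) y - C.b (C.ep y u) (C.hy f z.1) = t := by
  refine ⟨?_, ?_⟩
  · rw [ge, h1, h2, C.ep_gd H.a_pos hu, C.ep_gd_neg H.a_pos hu]
  · have e := C.b_gd H.a_pos (C.ep_ne_zero H.a_pos hu) y t
    rw [C.W_ep_self H.a_pos hu] at e
    rw [h1, e, sub_sub_cancel]


/-! ### the leaves -/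

lemma contDiff_bq (hξ : ξ ≠ 0) (f : FF n N m) : ContDiff ℝ ∞ (C.bq f ξ) :=
  contDiff_const.sub ((C.contDiff_b H horT hξ).comp (C.contDiff_hy' f))

lemma contDiff_pq (hξ : ξ ≠ 0) (f : FF n N m) : ContDiff ℝ ∞ (C.pq f ξ) :=
  (contDiff_adj.comp (C.contDiff_Jh' f)).clm_apply
    ((C.contDiff_W H horT hξ).comp (C.contDiff_hy' f))

lemma hasFDerivAt_bq (hξ : ξ ≠ 0) (f : FF n N m) (q : Euc m) :
    HasFDerivAt (C.bq f ξ) (innerSL ℝ (C.pq f ξ q)) q := by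
  have h1 := ((C.contDiff_hy' f).differentiable (by simp) q).hasFDerivAt
  refine (((C.hasFDerivAt_b H.a_pos hξ (C.hy f q)).comp q h1).const_sub (C.b ξ f.1)).congr_fderiv ?_
  ext e
  simp [pq, ContinuousLinearMap.adjoint_inner_left, C.Jh_eq]

lemma hasFDerivAt_pq (hξ : ξ ≠ 0) (f : FF n N m) (q : Euc m) :
    HasFDerivAt (C.pq f ξ) (C.HH f ξ q) q :=
  ((C.contDiff_pq H hξ f).differentiable (by simp) q).hasFDerivAt


/-- `fderiv_W'`; the `dP` part is normal -/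
lemma inner_HH (hξ : ξ ≠ 0) (f : FF n N m) (q e e' : Euc m) :
    ⟪C.HH f ξ q e, e'⟫ = ⟪fderiv ℝ (C.Jh f) q e e', C.W ξ (C.hy f q)⟫ -
      ⟪U G (rev (C.pr (C.hy f q), C.W ξ (C.hy f q))) (C.Jh f q e), C.Jh f q e'⟫ := by
  have hy := ((C.contDiff_hy' f).differentiable (by simp) q).hasFDerivAt
  have hW := (((C.contDiff_W H horT hξ).differentiable (by simp) (C.hy f q)).hasFDerivAt).comp q hy
  have hJ := (((C.contDiff_Jh' f).differentiable (by simp) q).hasFDerivAt).clm_apply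
    (hasFDerivAt_const e' q)
  have h1 := hW.inner ℝ hJ
  have h2 := (C.hasFDerivAt_pq H hξ f q).inner ℝ (hasFDerivAt_const e' q)
  have h3 : (fun q => ⟪C.pq f ξ q, e'⟫) = fun q => ⟪(C.W ξ ∘ C.hy f) q, C.Jh f q e'⟫ :=
    funext fun q => ContinuousLinearMap.adjoint_inner_left _ _ _
  rw [h3] at h2
  have h4 := DFunLike.congr_fun (h2.unique h1) e
  have hx := C.un_W H.a_pos hξ (C.hy f q)
  have h5 : fderiv ℝ C.pr (C.hy f q) (fderiv ℝ (C.hy f) q e) = C.Jh f q e := by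
    rw [C.Jh_eq]; rfl
  have h6 : ⟪dP G (C.pr (C.hy f q), C.W ξ (C.hy f q)) (C.Jh f q e), C.Jh f q e'⟫ = 0 :=
    inner_II G (C.pr_mem _) hx.mem (C.Jh_mem f q e) (C.Jh_mem f q e')
  simp only [ContinuousLinearMap.comp_apply, fderivInnerCLM_apply, ContinuousLinearMap.prod_apply,
    zero_apply, inner_zero_right, zero_add, ContinuousLinearMap.flip_apply,
    Function.comp_apply, ContinuousLinearMap.comp_zero] at h4
  rw [h4, C.fderiv_W' H horT N221.H.dHorS hξ, h5, inner_sub_left, h6, real_inner_comm]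
  ring

lemma HH_symm (hξ : ξ ≠ 0) (f : FF n N m) (q e e' : Euc m) :
    ⟪C.HH f ξ q e, e'⟫ = ⟪e, C.HH f ξ q e'⟫ := by
  have h : IsSymmSndFDerivAt ℝ (fun q => C.pr (C.hy f q)) q :=
    (C.pr_smooth.comp (C.contDiff_hy' f)).contDiffAt.isSymmSndFDerivAt
      (by simp only [minSmoothness_of_isRCLikeNormedField]; exact ENat.LEInfty.out)
  have h1 : fderiv ℝ (C.Jh f) q e e' = fderiv ℝ (C.Jh f) q e' e := h e e'
  rw [real_inner_comm (C.HH f ξ q e'), C.inner_HH H hξ, C.inner_HH H hξ, h1,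
    (N221.H.isU H).symm _ (rev_US (C.un_W H.a_pos hξ _)), real_inner_comm (C.Jh f q e)]

lemma eq_gs (hf : C.Frm f) (hz : z ∈ C.Dm f) : C.gs f (C.ge f z).1 z.1 = z := by
  rw [gs, pq, C.W_ge H hf hz, C.adj_uv H hf]

lemma eq_gu (hf : C.Frm f) (hz : z ∈ C.Dm f) : C.gu f (C.ge f z).2 z.1 = z := by
  rw [gu, pq, C.W_ge' H hf hz, map_neg, neg_neg, C.adj_uv H hf]

include hm in
lemma gs_spec (hf : C.Frm f) (hξ : ‖ξ‖ = 1) (h : 0 < ⟪C.W ξ (C.hy f q), C.nr f q⟫) :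
    C.gs f ξ q ∈ C.Dm f ∧ C.uv f (C.gs f ξ q) = C.W ξ (C.hy f q) ∧ (C.ge f (C.gs f ξ q)).1 = ξ := by
  obtain ⟨h1, h2⟩ := C.uv_eq H hm hf (C.un_W H.a_pos (bas_ne0 hξ) _) h
  refine ⟨h1, h2, ?_⟩
  show C.ep (C.hy f q) (C.uv f (q, (C.Jh f q).adjoint (C.W ξ (C.hy f q)))) = ξ
  rw [h2, C.ep_W H.a_pos hξ]

include hm in
lemma gu_spec (hf : C.Frm f) (hη : ‖η‖ = 1) (h : 0 < ⟪C.W η (C.hy f q), C.nr (fp f) q⟫) :
    C.gu f η q ∈ C.Dm f ∧ C.uv f (C.gu f η q) = -C.W η (C.hy f q) ∧ (C.ge f (C.gu f η q)).2 = η := by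
  rw [C.nr_fp, inner_neg_right, ← inner_neg_left] at h
  obtain ⟨h1, h2⟩ := C.uv_eq H hm hf (C.un_W H.a_pos (bas_ne0 hη) _).neg h
  rw [map_neg] at h1 h2
  refine ⟨h1, h2, ?_⟩
  show C.ep (C.hy f q) (-C.uv f (q, -(C.Jh f q).adjoint (C.W η (C.hy f q)))) = η
  rw [h2, neg_neg, C.ep_W H.a_pos hη]

lemma Bs_mem (hξ : ξ ≠ 0) (f : FF n N m) (q e : Euc m) :
    C.Bs f ξ q e ∈ Vp G (C.pr (C.hy f q), C.W ξ (C.hy f q)) :=
  Pv_mem (C.un_W H.a_pos hξ _).ts (C.un_W H.a_pos hξ _).norm _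

lemma Bs_apply (hξ : ξ ≠ 0) (f : FF n N m) (q e : Euc m) :
    C.Bs f ξ q e = C.Jh f q e - ⟪C.pq f ξ q, e⟫ • C.W ξ (C.hy f q) := by
  rw [Bs, ContinuousLinearMap.comp_apply, Pv_apply, pq, ContinuousLinearMap.adjoint_inner_left,
    (P_eq_self G (C.pr_mem _)).1 (C.Jh_mem f q e)]

lemma Bs_le (hξ : ξ ≠ 0) (f : FF n N m) (q e : Euc m) : ‖C.Bs f ξ q e‖ ≤ ‖C.Jh f q e‖ :=
  norm_Pv_le (C.un_W H.a_pos hξ _) _

/-- `⟪W, J e⟫² ≤ ‖J e‖² (1 - ⟪W, nr⟫²)` -/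
lemma le_Bs (hf : C.Frm f) (hξ : ξ ≠ 0) (q e : Euc m) :
    |⟪C.W ξ (C.hy f q), C.nr f q⟫| * ‖e‖ ≤ ‖C.Bs f ξ q e‖ := by
  have h1 := C.le_Jh H.a_pos hf q e
  have h2 := ChB.key (C.un_W H.a_pos hξ (C.hy f q)).norm (C.un_nr hf q).norm (C.inner_nr_Jh hf q e)
  rw [C.Bs_apply H hξ, pq, ContinuousLinearMap.adjoint_inner_left]
  exact (mul_le_mul_of_nonneg_left h1 (abs_nonneg _)).trans h2

lemma Bs_inj (hf : C.Frm f) (hξ : ξ ≠ 0) (h : ⟪C.W ξ (C.hy f q), C.nr f q⟫ ≠ 0) :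
    Function.Injective (C.Bs f ξ q) := by
  refine (injective_iff_map_eq_zero _).2 fun e he => ?_
  have h1 := C.le_Bs H hf hξ q e
  rw [he, norm_zero] at h1
  exact norm_le_zero_iff.1 (nonpos_of_mul_nonpos_right h1 (abs_pos.2 h))

include hm in
lemma Bs_surj (hf : C.Frm f) (hξ : ξ ≠ 0) (h : ⟪C.W ξ (C.hy f q), C.nr f q⟫ ≠ 0) {w : Euc N}
    (hw : w ∈ Vp G (C.pr (C.hy f q), C.W ξ (C.hy f q))) : ∃ e, C.Bs f ξ q e = w := by
  have hx := C.un_W H.a_pos hξ (C.hy f q)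
  have h1 := finrank_Vp hx.ts hx.norm
  exact surj_of_finrank (C.Bs_inj H hf hξ h) (C.Bs_mem H hξ f q) (by omega) hw

lemma inner_HH_le (hf : C.Frm f) (hξ : ξ ≠ 0) (q e : Euc m) :
    ⟪C.HH f ξ q e, e⟫ ≤ (‖G.P (C.pr (C.hy f q)) ∘L fderiv ℝ (C.Jh f) q e‖ * ‖e‖) -
      a * (⟪C.W ξ (C.hy f q), C.nr f q⟫ * ‖e‖) ^ 2 := by
  have hx := C.un_W H.a_pos hξ (C.hy f q)
  have hU : IsU G (U G) := N221.H.isU H
  have h1 : ⟪fderiv ℝ (C.Jh f) q e e, C.W ξ (C.hy f q)⟫ ≤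
      ‖G.P (C.pr (C.hy f q)) ∘L fderiv ℝ (C.Jh f) q e‖ * ‖e‖ := by
    rw [← (P_eq_self G (C.pr_mem _)).1 hx.mem, ← inner_P_left G (C.pr_mem _)]
    refine (real_inner_le_norm _ _).trans ?_
    rw [hx.norm, mul_one]
    exact (G.P (C.pr (C.hy f q)) ∘L fderiv ℝ (C.Jh f) q e).le_opNorm e
  have h2 := hU.lower _ (rev_US hx) (C.Bs f ξ q e) (by rw [Vp_rev]; exact C.Bs_mem H hξ f q e)
  have h3 : ⟪U G (rev (C.pr (C.hy f q), C.W ξ (C.hy f q))) (C.Bs f ξ q e), C.Bs f ξ q e⟫ =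
      ⟪U G (rev (C.pr (C.hy f q), C.W ξ (C.hy f q))) (C.Jh f q e), C.Jh f q e⟫ := by
    rw [Bs, ContinuousLinearMap.comp_apply, N221.H.Um_Pv hU hx, ← inner_Pv hx.ts,
      N221.H.Pv_Um hU hx]
  have h4 := pow_le_pow_left₀ (by positivity) (C.le_Bs H hf hξ q e) 2
  rw [mul_pow, sq_abs, ← mul_pow] at h4
  have h5 := mul_le_mul_of_nonneg_left h4 H.a_pos.le
  rw [C.inner_HH H hξ]
  linarith

lemma Su_sub_Ss (hf : C.Frm f) (hz : z ∈ C.Dm f) : C.Su f z - C.Ss f z =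
    (C.Bs f (C.ge f z).1 z.1).adjoint ∘L UDn.E G (C.pr (C.hy f z.1), C.uv f z) ∘L
      C.Bs f (C.ge f z).1 z.1 := by
  have hx := C.un_uv H hf hz
  have hG := C.ge_GG H hf hz
  have hU : IsU G (U G) := N221.H.isU H
  refine ContinuousLinearMap.ext fun e => ext_inner_right ℝ fun e' => ?_
  have h0 : rev (C.pr (C.hy f z.1), -C.uv f z) = (C.pr (C.hy f z.1), C.uv f z) :=
    rev_rev (C.pr (C.hy f z.1), C.uv f z)
  rw [Su, Ss, sub_apply, neg_apply, inner_sub_left, inner_neg_left, C.inner_HH H (bas_ne0 hG.1),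
    C.inner_HH H (bas_ne0 hG.2.1), ContinuousLinearMap.comp_apply,
    ContinuousLinearMap.adjoint_inner_left, Bs, C.W_ge H hf hz, C.W_ge' H hf hz, h0]
  simp only [ContinuousLinearMap.comp_apply]
  rw [UDn.E_apply, Pv_Pv hx, sub_self, add_zero, hU.comp_Pv _ hx, N221.H.Um_Pv hU hx,
    ← inner_Pv hx.ts, map_add, hU.Pv_comp hx, N221.H.Pv_Um hU hx, inner_add_left, inner_neg_right]
  ring

include hm in
/-- THE PAIRING IDENTITY -/
lemma det_Su_sub_Ss {h c : ℝ} {α : TT N → ℝ} (hc : Co G h α c) (hf : C.Frm f) (hz : z ∈ C.Dm f) :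
    (C.Su f z - C.Ss f z).det =
      Real.exp (C.aa α c f (C.ge f z).1 z.1 + C.aa α c f (C.ge f z).2 z.1) := by
  have hx := C.un_uv H hf hz
  have hG := C.ge_GG H hf hz
  have hU : IsU G (U G) := N221.H.isU H
  have h1 : ⟪C.W (C.ge f z).1 (C.hy f z.1), C.nr f z.1⟫ ≠ 0 := by
    rw [C.W_ge H hf hz]; exact (C.uv_side H hf hz).ne'
  have hB := C.Bs_inj H hf (bas_ne0 hG.1) h1
  have h0 : rev (C.pr (C.hy f z.1), -C.uv f z) = (C.pr (C.hy f z.1), C.uv f z) :=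
    rev_rev (C.pr (C.hy f z.1), C.uv f z)
  have h2 : C.kq f (C.ge f z).2 z.1 = C.kq f (C.ge f z).1 z.1 := by
    rw [kq, kq, Bs, Bs, C.W_ge H hf hz, C.W_ge' H hf hz]
    exact congrArg (fun A : Op N => Real.log ((A ∘L C.Jh f z.1).adjoint ∘L A ∘L C.Jh f z.1).det)
      (Pv_rev (C.pr (C.hy f z.1), C.uv f z))
  have h3 : (UDn.E G (C.pr (C.hy f z.1), C.uv f z)).det =
      Real.exp (ldet G (C.pr (C.hy f z.1), C.uv f z)) :=
    (Real.exp_log ((ldetT n N a S G H).2.1 _ hx)).symm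
  have h4 : ((C.Bs f (C.ge f z).1 z.1).adjoint ∘L C.Bs f (C.ge f z).1 z.1).det =
      Real.exp (C.kq f (C.ge f z).1 z.1) := (Real.exp_log (det_gram_pos hB)).symm
  rw [C.Su_sub_Ss H hf hz, det_gram_conj hB, h3, h4, hc.split _ hx, ← Real.exp_add, aa, aa, h2,
    C.W_ge H hf hz, C.W_ge' H hf hz, h0]
  · congr 1; ring
  · intro w
    obtain ⟨e, he⟩ := C.Bs_surj H hm hf (bas_ne0 hG.1) h1
      (w := UDn.E G (C.pr (C.hy f z.1), C.uv f z) w - w) (by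
        rw [C.W_ge H hf hz, UDn.E_apply, add_sub_assoc, sub_sub_cancel_left]
        refine Submodule.add_mem _ (Submodule.add_mem _ (hU.mem hx w) ?_)
          (Submodule.neg_mem _ (Pv_mem hx.ts hx.norm w))
        rw [← Vp_rev]; exact hU.mem (rev_US hx) w)
    exact ⟨e, he.symm⟩

/-! ### symmetries -/

omit H in
lemma pq_fp (f : FF n N m) : C.pq (fp f) = C.pq f := rfl
omit H in
lemma HH_fp (f : FF n N m) : C.HH (fp f) = C.HH f := rfl
omit H in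
lemma aa_fp (α : TT N → ℝ) (c : ℝ) (f : FF n N m) : C.aa α c (fp f) = C.aa α c f := rfl
omit H in
lemma gs_fp (f : FF n N m) (η : Euc n) (q : Euc m) : C.gs (fp f) η q = flp (C.gu f η q) :=
  Prod.ext rfl (neg_neg _).symm
omit H in
lemma uv_fp (f : FF n N m) (z : ZZ m) : C.uv (fp f) (flp z) = -C.uv f z := by
  simp [uv, flp, C.Jh_fp, C.nr_fp, add_comm]
omit H in
lemma ge_fp (f : FF n N m) (z : ZZ m) : C.ge (fp f) (flp z) = (C.ge f z).swap := by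
  rw [ge, C.uv_fp, neg_neg]; rfl
omit H in
lemma Ss_fp (f : FF n N m) (z : ZZ m) : C.Ss (fp f) (flp z) = -C.Su f z := by
  rw [Ss, Su, C.ge_fp, neg_neg]; rfl

omit H in
lemma Dm_fg (hf : C.Frm f) (hg : C.Deck g) : C.Dm (fg g f) = C.Dm f := by
  rw [Dm, Dm, C.Jh_fg hf hg]
omit H in
lemma uv_fg (hf : C.Frm f) (hg : C.Deck g) : C.uv (fg g f) = C.uv f := by
  funext z; rw [uv, uv, C.Jh_fg hf hg, C.nr_fg hf hg]
lemma ge_fg (hf : C.Frm f) (hg : C.Deck g) (hz : z ∈ C.Dm f) :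
    C.ge (fg g f) z = (C.act g (C.ge f z).1, C.act g (C.ge f z).2) := by
  have hx := C.un_uv H hf hz
  rw [ge, ge, C.uv_fg hf hg, C.hy_fg hf hg, C.act_ep H.a_pos hg hx, C.act_ep H.a_pos hg hx.neg]
lemma pq_fg (hf : C.Frm f) (hg : C.Deck g) (hξ : ξ ≠ 0) :
    C.pq (fg g f) (C.act g ξ) = C.pq f ξ := by
  funext q; rw [pq, pq, C.Jh_fg hf hg, C.hy_fg hf hg, C.W_act H.a_pos hg hξ]
lemma HH_fg (hf : C.Frm f) (hg : C.Deck g) (hξ : ξ ≠ 0) :
    C.HH (fg g f) (C.act g ξ) = C.HH f ξ := by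
  funext q; rw [HH, HH, C.pq_fg H hf hg hξ]
lemma gs_fg (hf : C.Frm f) (hg : C.Deck g) (hξ : ξ ≠ 0) :
    C.gs (fg g f) (C.act g ξ) = C.gs f ξ := by
  funext q; rw [gs, gs, C.pq_fg H hf hg hξ]
lemma Bs_fg (hf : C.Frm f) (hg : C.Deck g) (hξ : ξ ≠ 0) :
    C.Bs (fg g f) (C.act g ξ) = C.Bs f ξ := by
  funext q; rw [Bs, Bs, C.Jh_fg hf hg, C.hy_fg hf hg, hg.pr_eq, C.W_act H.a_pos hg hξ]
lemma aa_fg (α : TT N → ℝ) (c : ℝ) (hf : C.Frm f) (hg : C.Deck g) (hξ : ξ ≠ 0) :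
    C.aa α c (fg g f) (C.act g ξ) = C.aa α c f ξ := by
  funext q
  rw [aa, aa, kq, kq, C.Bs_fg H hf hg hξ, C.hy_fg hf hg, hg.pr_eq, C.W_act H.a_pos hg hξ]
lemma Fw_fg (hg : C.Deck g) (h : C.Fw f ξ) : C.Fw (fg g f) (C.act g ξ) := by
  refine ⟨C.norm_act H.a_pos hg (bas_ne0 h.1), ?_⟩
  rw [show (fg g f).1 = g f.1 from rfl, C.W_act H.a_pos hg (bas_ne0 h.1)]
  exact h.2
lemma Ss_fg (hf : C.Frm f) (hg : C.Deck g) (hz : z ∈ C.Dm f) : C.Ss (fg g f) z = C.Ss f z := by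
  rw [Ss, Ss, C.ge_fg H hf hg hz, C.HH_fg H hf hg (bas_ne0 (C.ge_GG H hf hz).1)]
lemma Su_fg (hf : C.Frm f) (hg : C.Deck g) (hz : z ∈ C.Dm f) : C.Su (fg g f) z = C.Su f z := by
  rw [Su, Su, C.ge_fg H hf hg hz, C.HH_fg H hf hg (bas_ne0 (C.ge_GG H hf hz).2.1)]

end Crest.Agent.N221.Cov
end
end

-- ▼ part N221/Ch/Crs

/-! Row 221, block Ch: crossing lemma, uniform radius, transition maps. -/

set_option autoImplicit false
set_option linter.unusedSectionVars false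
set_option linter.unusedVariables false

open MeasureTheory Set Filter Topology Metric
open scoped ContDiff RealInnerProductSpace ENNReal
open Crest.GeometryTopology.Submanifold
open Crest.Agent.R241.DDefs Crest.Agent.R241.D2
open Crest.Agent.R208.J Crest.Agent.R208.L

noncomputable section

namespace Crest.Agent.N221.Cov

variable {n N m : ℕ} {a : ℝ} {S : Set (Euc N)} {G : Geo n N (-(a ^ 2)) S} (C : Cov G)
variable {f f' f'' : FF n N m} {z z' : ZZ m} {x y y' ξ η : Euc n} {v u u' : Euc N} {q q' : Euc m}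
  {g : Euc n → Euc n} {s t : ℝ}
omit C in
lemma scalar_ift {P : Type} [NormedAddCommGroup P] [NormedSpace ℝ P] [CompleteSpace P]
    {Φ : P × ℝ → ℝ} {p : P} {t c : ℝ} (hΦ : ContDiffAt ℝ ∞ Φ (p, t))
    (hd : HasDerivAt (fun t => Φ (p, t)) c t) (hc : c ≠ 0) :
    ∃ τ : P → ℝ, ContDiffAt ℝ ∞ τ p ∧ τ p = t ∧ ∀ᶠ x in 𝓝 p, Φ (x, τ x) = Φ (p, t) := by
  have hi : (fderiv ℝ Φ (p, t) ∘L ContinuousLinearMap.inr ℝ P ℝ).IsInvertible := by
    refine ⟨ContinuousLinearEquiv.unitsEquivAut ℝ (Units.mk0 c hc), ?_⟩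
    have h1 := (hΦ.differentiableAt (by simp)).hasFDerivAt.comp t (hasFDerivAt_prodMk_right p t)
    rw [h1.unique hd.hasFDerivAt]
    ext; simp
  exact ⟨_, hΦ.contDiffAt_implicitFunction (by simp) hi, hΦ.implicitFunction_apply_self (by simp) hi,
    hΦ.eventually_apply_implicitFunction (by simp) hi⟩

lemma contDiffAt_vel (hu : u ∈ G.T (C.pr y)) (t : ℝ) :
    ContDiffAt ℝ ∞ (fun k : Euc n × Euc N × ℝ => C.vel k.1 k.2.1 k.2.2) (y, u, t) :=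
  ((contDiffAt_fl' G (q := (C.pr y, u)) ⟨C.pr_mem y, hu⟩ t).comp (y, u, t)
    (f := fun k : Euc n × Euc N × ℝ => ((C.pr k.1, k.2.1), k.2.2))
    (((C.pr_smooth.contDiffAt.comp _ contDiffAt_fst).prodMk (by fun_prop)).prodMk
      (by fun_prop))).snd

lemma inner_nr_pos (hf : C.Frm f) : 0 < ⟪u, C.nr f q⟫ ↔ 0 < ⟪C.nr0 f (C.hy f q), u⟫ := by
  rw [nr, real_inner_smul_right, real_inner_comm,
    mul_pos_iff_of_pos_left (inv_pos.2 (norm_pos_iff.2 (C.nr0_ne hf.un _)))]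

variable (H : Hyp n N a S) (hm : m + 1 = n)
include H hm

/-- CROSSING LEMMA.  Implicit function theorem (`ContDiffAt.implicitFunction`) for
`⟪lg x (gd y u t), v⟫ = 0` (`hasDerivAt_cross`, `uv_side`); `Z = (L* lg x y', J* u')`;
`eq_hy`, `uv_eq`. -/
lemma loc_cross (hf : C.Frm f) (hz : z ∈ C.Dm f) (hu : C.Un y u)
    (h1 : C.hy f z.1 = C.gd y u t) (h2 : C.uv f z = C.vel y u t) :
    ∃ (τ : FF n N m × Euc n × Euc N → ℝ) (Z : FF n N m × Euc n × Euc N → ZZ m),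
      ContDiffAt ℝ ∞ τ (f, y, u) ∧ ContDiffAt ℝ ∞ Z (f, y, u) ∧ τ (f, y, u) = t ∧
      Z (f, y, u) = z ∧ ∀ᶠ k in 𝓝 (f, y, u), C.Frm k.1 → C.Un k.2.1 k.2.2 →
        C.hy k.1 (Z k).1 = C.gd k.2.1 k.2.2 (τ k) ∧ C.uv k.1 (Z k) = C.vel k.2.1 k.2.2 (τ k) := by
  have hs := (C.inner_nr_pos hf).1 (C.uv_side H hf hz)
  rw [h1, h2] at hs
  have hg : ContDiff ℝ ∞ fun k : (FF n N m × Euc n × Euc N) × ℝ => C.gd k.1.2.1 k.1.2.2 k.2 :=
    C.contDiff_gd.comp (f := fun k : (FF n N m × Euc n × Euc N) × ℝ => (k.1.2.1, k.1.2.2, k.2))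
      (by fun_prop)
  have hl : ContDiff ℝ ∞ fun k : (FF n N m × Euc n × Euc N) × ℝ =>
      C.lg k.1.1.1 (C.gd k.1.2.1 k.1.2.2 k.2) :=
    C.lg_smooth.comp (f := fun k : (FF n N m × Euc n × Euc N) × ℝ =>
      (k.1.1.1, C.gd k.1.2.1 k.1.2.2 k.2)) (ContDiff.prodMk (by fun_prop) hg)
  obtain ⟨τ, t1, t2, t3⟩ := scalar_ift (p := (f, y, u)) (t := t)
    (Φ := fun k : (FF n N m × Euc n × Euc N) × ℝ => ⟪C.lg k.1.1.1 (C.gd k.1.2.1 k.1.2.2 k.2), k.1.1.2.1⟫)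
    (hl.inner ℝ (by fun_prop)).contDiffAt (C.hasDerivAt_cross f hu.mem t) hs.ne'
  have e0 : ⟪C.lg f.1 (C.gd y u t), f.2.1⟫ = 0 := h1 ▸ C.inner_lg_hy hf z.1
  have c0 : ContDiffAt ℝ ∞ (fun k : FF n N m × Euc n × Euc N => (k, τ k)) (f, y, u) :=
    contDiffAt_id.prodMk t1
  set Q : FF n N m × Euc n × Euc N → Euc m := fun k =>
    k.1.2.2.adjoint (C.lg k.1.1 (C.gd k.2.1 k.2.2 (τ k))) with hQ
  have cQ : ContDiffAt ℝ ∞ Q (f, y, u) :=
    (contDiff_adj.contDiffAt.comp _ (f := fun k : FF n N m × Euc n × Euc N => k.1.2.2)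
      (by fun_prop)).clm_apply (hl.contDiffAt.comp (f, y, u) c0)
  have cV : ContDiffAt ℝ ∞ (fun k : FF n N m × Euc n × Euc N => C.vel k.2.1 k.2.2 (τ k)) (f, y, u) :=
    ContDiffAt.comp (f := fun k : FF n N m × Euc n × Euc N => (k.2.1, k.2.2, τ k))
      (g := fun k : Euc n × Euc N × ℝ => C.vel k.1 k.2.1 k.2.2) (f, y, u)
      (by rw [t2]; exact C.contDiffAt_vel hu.mem t) (by fun_prop)
  have q0 : Q (f, y, u) = z.1 := by simp only [hQ, t2, ← h1, C.adj_lg_hy hf]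
  have cJ : ContDiffAt ℝ ∞ (fun k : FF n N m × Euc n × Euc N => C.Jh k.1 (Q k)) (f, y, u) :=
    C.contDiff_Jh.contDiffAt.comp _ (f := fun k : FF n N m × Euc n × Euc N => (k.1, Q k))
      (contDiffAt_fst.prodMk cQ)
  have cN : ContDiffAt ℝ ∞ (fun k : FF n N m × Euc n × Euc N =>
      C.nr0 k.1 (C.gd k.2.1 k.2.2 (τ k))) (f, y, u) :=
    C.contDiff_nr0.contDiffAt.comp _
      (f := fun k : FF n N m × Euc n × Euc N => (k.1, C.gd k.2.1 k.2.2 (τ k)))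
      (contDiffAt_fst.prodMk (hg.contDiffAt.comp (f, y, u) c0))
  refine ⟨τ, fun k => (Q k, (C.Jh k.1 (Q k)).adjoint (C.vel k.2.1 k.2.2 (τ k))), t1,
    cQ.prodMk ((contDiff_adj.contDiffAt.comp _ cJ).clm_apply cV), t2, ?_, ?_⟩
  · simp only [q0, t2, ← h2, C.adj_uv H hf]
  · have := (cN.inner ℝ cV).continuousAt.eventually (lt_mem_nhds (by simpa only [t2] using hs))
    filter_upwards [t3, this] with k k1 k2 hk hku
    have e1 : C.hy k.1 (Q k) = C.gd k.2.1 k.2.2 (τ k) := C.eq_hy hk hm (k1.trans e0)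
    exact ⟨e1, (C.uv_eq H hm hk (e1 ▸ hku.vel C _) ((C.inner_nr_pos hk).2 (e1 ▸ k2))).2⟩

omit hm in
/-- uniformity principle: a deck invariant property that holds near the centre of every frame
holds on a uniform ball (`exists_deck`, `isCompact_frm`, tube lemma) -/
lemma unif {X E : Type} [TopologicalSpace X] [NormedAddCommGroup E] {K : Set X}
    (hK : IsCompact K) {p : FF n N m → X → E → Prop} {A : FF n N m → X → Prop}
    (hA : IsClosed {k : FF n N m × X | C.Frm k.1 ∧ A k.1 k.2})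
    (hloc : ∀ f x, C.Frm f → x ∈ K → A f x →
      ∀ᶠ k : (FF n N m × X) × E in 𝓝 ((f, x), 0), C.Frm k.1.1 → A k.1.1 k.1.2 → p k.1.1 k.1.2 k.2)
    (hinv : ∀ f x g, C.Frm f → x ∈ K → A f x → C.Deck g →
      ∃ x' ∈ K, A (fg g f) x' ∧ ∀ e, p (fg g f) x' e → p f x e) :
    ∃ r > 0, ∀ f x e, C.Frm f → x ∈ K → A f x → ‖e‖ ≤ r → p f x e := by
  obtain ⟨D, -, hD⟩ := C.exists_deck
  have hc := ((C.isCompact_frm (m := m) D).prod hK).inter_right hA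
  have := hc.eventually_forall_of_forall_eventually (x₀ := (0 : E))
    (P := fun e k => C.Frm k.1 → A k.1 k.2 → p k.1 k.2 e) fun k hk =>
      (continuous_swap.tendsto ((0 : E), k)).eventually (hloc k.1 k.2 hk.2.1 hk.1.2 hk.2.2)
  obtain ⟨r, hr, h⟩ := Metric.eventually_nhds_iff_ball.1 this
  refine ⟨r / 2, half_pos hr, fun f x e hf hx ha he => ?_⟩
  obtain ⟨g, hg, hgD⟩ := hD f.1
  obtain ⟨x', hx', ha', hp⟩ := hinv f x g hf hx ha hg
  exact hp e (h e (mem_ball_zero_iff.2 (by linarith)) (fg g f, x')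
    ⟨⟨⟨hf.fg C hg, hgD⟩, hx'⟩, hf.fg C hg, ha'⟩ (hf.fg C hg) ha')

omit hm in
lemma unif0 {E : Type} [NormedAddCommGroup E] {p : FF n N m → E → Prop}
    (hloc : ∀ f, C.Frm f → ∀ᶠ k : FF n N m × E in 𝓝 (f, 0), C.Frm k.1 → p k.1 k.2)
    (hinv : ∀ f g e, C.Frm f → C.Deck g → p (fg g f) e → p f e) :
    ∃ r > 0, ∀ f e, C.Frm f → ‖e‖ ≤ r → p f e := by
  obtain ⟨r, hr, h⟩ := C.unif H (X := Unit) (K := univ) isCompact_univ (p := fun f _ e => p f e)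
    (A := fun _ _ => True) (by simpa using C.isClosed_frm.preimage continuous_fst)
    (fun f x hf _ _ => ((show Continuous fun k : (FF n N m × Unit) × E => (k.1.1, k.2) by
      fun_prop).tendsto ((f, x), 0)).eventually (hloc f hf) |>.mono fun k hk h1 _ => hk h1)
    (fun f x g hf _ _ hg => ⟨x, trivial, trivial, fun e => hinv f g e hf hg⟩)
  exact ⟨r, hr, fun f e hf he => h f () e hf trivial trivial he⟩

omit hm in
/-- uniform transversality -/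
lemma exists_trv : ∃ r > 0, ∀ (f : FF n N m) (z : ZZ m) (t : ℝ), C.Frm f → ‖z‖ ≤ r → |t| ≤ r →
    0 < ⟪C.nr0 f (C.gd (C.hy f z.1) (C.uv f z) t), C.vel (C.hy f z.1) (C.uv f z) t⟫ := by
  obtain ⟨r, hr, h⟩ := C.unif0 H (E := ZZ m × ℝ) (p := fun (f : FF n N m) e => ‖e.1.2‖ < 1 →
    0 < ⟪C.nr0 f (C.gd (C.hy f e.1.1) (C.uv f e.1) e.2), C.vel (C.hy f e.1.1) (C.uv f e.1) e.2⟫)
    (fun f hf => by
      have h0 : (0 : ZZ m) ∈ C.Dm f := C.mem_Dm H hf (by simp)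
      have c1 : ContinuousAt (fun k : FF n N m × ZZ m × ℝ =>
          (C.hy k.1 k.2.1.1, C.uv k.1 k.2.1, k.2.2)) (f, 0) :=
        (C.contDiff_hy.continuous.continuousAt.comp
          (f := fun k : FF n N m × ZZ m × ℝ => (k.1, k.2.1.1)) (by fun_prop)).prodMk
        (((C.contDiffAt_uv H hf h0).continuousAt.comp_of_eq
          (f := fun k : FF n N m × ZZ m × ℝ => (k.1, k.2.1)) (by fun_prop) rfl).prodMk (by fun_prop))
      have c2 := (C.contDiffAt_vel (C.un_uv H hf h0).mem 0).continuousAt.comp_of_eq c1 rfl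
      have c3 := C.contDiff_nr0.continuous.continuousAt.comp
        (continuousAt_fst.prodMk (C.continuous_gd.continuousAt.comp c1))
      refine ((c3.inner (𝕜 := ℝ) c2).eventually (lt_mem_nhds ?_)).mono fun k hk _ _ => hk
      simp [C.gd_zero, C.vel_zero, C.hy_zero, C.uv_zero H hf, C.nr0_self hf.un, hf.un.norm])
    (fun f g e hf hg h he => by
      have h1 := h he
      rwa [C.hy_fg hf hg, C.uv_fg hf hg, hg.gd_eq C (C.un_uv H hf (C.mem_Dm H hf he)).mem,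
        hg.vel_eq C, C.nr0_fg hg] at h1)
  refine ⟨min r (1 / 2), by positivity, fun f z t hf hz ht => h f (z, t) hf
    (max_le (hz.trans (min_le_left _ _)) (ht.trans (min_le_left _ _))) ?_⟩
  linarith [norm_snd_le z, min_le_right r (1 / 2)]

/-- injectivity: `same_geod`, the two points are at distance `|t| ≤ 2 r`, and
`t ↦ ⟪lg x (gd y u t), v⟫` has positive derivative for `‖z‖ ≤ r`, `|t| ≤ 2 r` -/
lemma exists_inj : ∃ r > 0, ∀ f : FF n N m, C.Frm f → InjOn (C.ge f) (closedBall 0 r) := by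
  obtain ⟨r, hr, h⟩ := C.exists_trv (m := m) H
  refine ⟨min (r / 2) (1 / 2), by positivity, fun f hf z hz z' hz' e => ?_⟩
  rw [mem_closedBall_zero_iff, le_min_iff] at hz hz'
  have u1 := C.un_uv H hf (C.mem_Dm H hf (z := z) (by linarith [norm_snd_le z]))
  have u2 := C.un_uv H hf (C.mem_Dm H hf (z := z') (by linarith [norm_snd_le z']))
  obtain ⟨e1, e2⟩ := C.same_geod H u1 u2 (congrArg Prod.fst e) (congrArg Prod.snd e)
  set t := C.b (C.ep (C.hy f z.1) (C.uv f z)) (C.hy f z.1) -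
    C.b (C.ep (C.hy f z.1) (C.uv f z)) (C.hy f z'.1)
  have ht : |t| ≤ r := by
    have := C.dd_triangle H.a_pos.le (C.hy f z.1) f.1 (C.hy f z'.1)
    rw [C.dd_comm _ f.1, C.dd_hy hf, C.dd_hy hf] at this
    rw [← u1.dd_gd_zero C t, ← e1]
    linarith [norm_fst_le z, norm_fst_le z']
  have hmono : StrictMonoOn (fun t => ⟪C.lg f.1 (C.gd (C.hy f z.1) (C.uv f z) t), f.2.1⟫)
      (Icc (-r) r) :=
    strictMonoOn_of_deriv_pos (convex_Icc _ _)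
      (fun t _ => (C.hasDerivAt_cross f u1.mem t).continuousAt.continuousWithinAt) fun t ht => by
        rw [(C.hasDerivAt_cross f u1.mem t).deriv]
        exact h f z t hf (by linarith) (abs_le.2 (mem_Icc.1 (interior_subset ht)))
  have t0 : t = 0 := hmono.injOn (abs_le.1 ht) ⟨by linarith, hr.le⟩ (by
    simp only [← e1, C.gd_zero, C.inner_lg_hy hf])
  rw [t0, C.gd_zero] at e1
  rw [t0, C.vel_zero] at e2
  have e3 := C.hy_inj hf e1
  exact Prod.ext e3.symm (by rw [← C.adj_uv H hf z, ← C.adj_uv H hf z', e2, e3])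

omit hm in
lemma isClosed_Fw : IsClosed {k : FF n N m × Euc n | C.Frm k.1 ∧ C.Fw k.1 k.2} := by
  have h1 : IsClosed {k : FF n N m × Euc n | ‖k.2‖ = 1} :=
    isClosed_eq (by fun_prop) continuous_const
  have h2 : ContinuousOn (fun k : FF n N m × Euc n => ⟪C.W k.2 k.1.1, k.1.2.1⟫) {k | ‖k.2‖ = 1} :=
    ContinuousOn.inner (𝕜 := ℝ) ((C.continuousOn_W H.a_pos).comp
      (f := fun k : FF n N m × Euc n => (k.2, k.1.1)) (by fun_prop) fun k hk => bas_ne0 hk)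
      (by fun_prop)
  exact (C.isClosed_frm.preimage continuous_fst).inter
    (h2.preimage_isClosed_of_isClosed h1 (isClosed_Ici (a := (1 / 2 : ℝ))))

omit hm in
lemma continuousAt_W (hξ : ξ ≠ 0) (y : Euc n) :
    ContinuousAt (fun p : Euc n × Euc n => C.W p.1 p.2) (ξ, y) :=
  (C.continuousOn_W H.a_pos).continuousAt
    ((isOpen_ne_fun continuous_fst continuous_const).mem_nhds hξ)

lemma exists_rad : ∃ r, C.Rad m r := by
  have ha := H.a_pos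
  obtain ⟨r1, p1, h1⟩ := C.exists_inj H hm
  obtain ⟨r2, p2, h2⟩ := C.unif0 H (p := fun (f : FF n N m) q => ‖C.Jh f q‖ ≤ 2)
    (fun f hf => (C.contDiff_Jh.continuous.norm.continuousAt.eventually (gt_mem_nhds (a := 2) (by
      simp only [C.Jh_zero hf]
      exact (ContinuousLinearMap.opNorm_le_bound _ zero_le_one fun e => by
        rw [hf.iso, one_mul]).trans_lt one_lt_two))).mono fun k hk _ => hk.le)
    fun f g e hf hg h => by rwa [C.Jh_fg hf hg] at h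
  obtain ⟨r3, p3, h3⟩ := C.unif0 H (p := fun (f : FF n N m) (z : ZZ m) => z ∈ C.Dm f →
      1 / 2 ≤ ⟪C.W (C.ge f z).1 f.1, f.2.1⟫)
    (fun f hf => by
      have h0 : (0 : ZZ m) ∈ C.Dm f := C.mem_Dm H hf (by simp)
      have c1 := (C.continuousOn_ge H (f, 0) ⟨hf, h0⟩).fst
      have c2 := (C.continuousAt_W H (bas_ne0 (C.ge_GG H hf h0).1) f.1).comp_continuousWithinAt_of_eq
        (c1.prodMk continuous_fst.fst.continuousWithinAt) rfl
      have c3 := (c2.inner (𝕜 := ℝ) continuous_fst.snd.fst.continuousWithinAt).eventually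
        (lt_mem_nhds (a := 1 / 2) (by
          simp only [Function.comp, C.ge_zero H hf, C.W_ep_self ha hf.un,
            real_inner_self_eq_norm_sq, hf.un.norm]; norm_num))
      exact (eventually_nhdsWithin_iff.1 c3).mono fun k hk k1 k2 => (hk ⟨k1, k2⟩).le)
    fun f g z hf hg h hz => by
      have := h (by rwa [C.Dm_fg hf hg])
      rwa [C.ge_fg H hf hg hz, show (fg g f).1 = g f.1 from rfl,
        C.W_act ha hg (bas_ne0 (C.ge_GG H hf hz).1)] at this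
  obtain ⟨r4, p4, h4⟩ := C.unif H (K := sphere (0 : Euc n) 1) (isCompact_sphere _ _)
    (p := fun (f : FF n N m) ξ q => 1 / 4 ≤ ⟪C.W ξ (C.hy f q), C.nr f q⟫) (A := C.Fw)
    (C.isClosed_Fw H) (fun f ξ hf _ hξ => by
      have c1 := (C.continuousAt_W H (bas_ne0 hξ.1) (C.hy f 0)).comp_of_eq
        (f := fun k : (FF n N m × Euc n) × Euc m => (k.1.2, C.hy k.1.1 k.2)) (x := ((f, ξ), 0))
        (ContinuousAt.prodMk (by fun_prop) (C.contDiff_hy.continuous.continuousAt.comp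
          (f := fun k : (FF n N m × Euc n) × Euc m => (k.1.1, k.2)) (by fun_prop))) rfl
      have c2 := (C.contDiffAt_nr hf 0).continuousAt.comp_of_eq
        (f := fun k : (FF n N m × Euc n) × Euc m => (k.1.1, k.2)) (x := ((f, ξ), 0)) (by fun_prop) rfl
      refine ((c1.inner (𝕜 := ℝ) c2).eventually (lt_mem_nhds (a := 1 / 4) ?_)).mono fun k hk _ _ => hk.le
      simp only [Function.comp, C.hy_zero, C.nr_zero hf]
      linarith [hξ.2])
    fun f ξ g hf _ hξ hg => ⟨_, mem_sphere_zero_iff_norm.2 (C.Fw_fg H hg hξ).1, C.Fw_fg H hg hξ,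
      fun q h => by rwa [C.hy_fg hf hg, C.nr_fg hf hg, C.W_act ha hg (bas_ne0 hξ.1)] at h⟩
  obtain ⟨r5, p5, h5⟩ := C.unif0 H (p := fun (f : FF n N m) q =>
      ‖ContinuousLinearMap.compL ℝ (Euc m) (Euc N) (Euc N) (G.P (C.pr (C.hy f q))) ∘L
        fderiv ℝ (C.Jh f) q‖ ≤ a / 32)
    (fun f hf => by
      have c1 : ContDiff ℝ ∞ fun k : FF n N m × Euc m => fderiv ℝ (C.Jh k.1) k.2 :=
        ContDiff.fderiv (f := fun (k : FF n N m × Euc m) q => C.Jh k.1 q) (g := Prod.snd) (n := ∞)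
          (C.contDiff_Jh.comp (f := fun w : (FF n N m × Euc m) × Euc m => (w.1.1, w.2))
            (by fun_prop)) contDiff_snd (by simp)
      have c2 := (((ContinuousLinearMap.compL ℝ (Euc m) (Euc N) (Euc N)).continuous.comp
        (G.contDiff_P.continuous.comp (C.pr_smooth.continuous.comp
          C.contDiff_hy.continuous))).clm_comp c1.continuous).norm
      refine (c2.continuousAt.eventually (gt_mem_nhds (a := a / 32) ?_)).mono fun k hk _ => hk.le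
      have : ContinuousLinearMap.compL ℝ (Euc m) (Euc N) (Euc N) (G.P (C.pr (C.hy f 0))) ∘L
          fderiv ℝ (C.Jh f) 0 = 0 := by
        refine ContinuousLinearMap.ext fun e => ContinuousLinearMap.ext fun e' => ?_
        rw [C.hy_zero]
        exact C.P_fderiv_Jh_zero hf e e'
      simp only [Function.comp, this, norm_zero]
      positivity)
    fun f g e hf hg h => by rwa [C.pr_hy_fg hf hg, C.Jh_fg hf hg] at h
  obtain ⟨r, p, q0, q1, q2, q3, q4, q5⟩ : ∃ r : ℝ, 0 < r ∧ r ≤ 1 / 4 ∧ 2 * r ≤ r1 ∧ 2 * r ≤ r2 ∧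
      2 * r ≤ r3 ∧ 2 * r ≤ r4 ∧ 2 * r ≤ r5 := by
    refine ⟨min (min (min (1 / 2) r1) (min r2 r3)) (min r4 r5) / 2, by positivity, ?_⟩
    simp only [mul_div_cancel₀ _ (two_ne_zero (α := ℝ)), div_le_iff₀ (two_pos (α := ℝ))]
    refine ⟨?_, ?_, ?_, ?_, ?_, ?_⟩ <;> simp only [min_le_iff, le_refl, true_or, or_true]
    norm_num
  have sd : ∀ f : FF n N m, C.Frm f → ∀ ξ, C.Fw f ξ → ∀ q, ‖q‖ ≤ 2 * r →
      1 / 4 ≤ ⟪C.W ξ (C.hy f q), C.nr f q⟫ := fun f hf ξ hξ q hq =>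
    h4 f ξ q hf (mem_sphere_zero_iff_norm.2 hξ.1) hξ (hq.trans q4)
  refine ⟨r, p, q0, fun f hf => (h1 f hf).mono (closedBall_subset_closedBall q1),
    fun f hf q hq => h2 f q hf (hq.trans q2), fun f hf z hz => ?_, sd, fun f hf ξ hξ q hq e => ?_⟩
  · have hz' := C.mem_Dm H hf (z := z) (by linarith [norm_snd_le z])
    exact ⟨(C.ge_GG H hf hz').1, h3 f z hf (hz.trans q3) hz'⟩
  · have k1 := C.inner_HH_le H hf (bas_ne0 hξ.1) q e
    have k2 : ‖G.P (C.pr (C.hy f q)) ∘L fderiv ℝ (C.Jh f) q e‖ ≤ a / 32 * ‖e‖ :=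
      (ContinuousLinearMap.le_opNorm (ContinuousLinearMap.compL ℝ (Euc m) (Euc N) (Euc N)
        (G.P (C.pr (C.hy f q))) ∘L fderiv ℝ (C.Jh f) q) e).trans
        (mul_le_mul_of_nonneg_right (h5 f q hf (hq.trans q5)) (norm_nonneg _))
    have k3 := mul_le_mul_of_nonneg_right (sd f hf ξ hξ q hq) (norm_nonneg e)
    have k4 := mul_le_mul_of_nonneg_right k2 (norm_nonneg e)
    have k5 := mul_le_mul_of_nonneg_left (pow_le_pow_left₀ (by positivity) k3 2) ha.le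
    nlinarith

lemma rad : C.Rad m (C.rr m) := Classical.epsilon_spec (C.exists_rad H hm)

lemma rr_pos : 0 < C.rr m := (C.rad H hm).pos

lemma Dm_of_le (hf : C.Frm f) (hz : ‖z‖ ≤ 2 * C.rr m) : z ∈ C.Dm f :=
  C.mem_Dm H hf (by linarith [norm_snd_le z, (C.rad H hm).le])

lemma Dm_lt (hf : C.Frm f) (hz : ‖z‖ < C.rr m) : z ∈ C.Dm f :=
  C.Dm_of_le H hm hf (by linarith [C.rr_pos H hm])

lemma back (hf : C.Frm f) (hz : ‖z‖ ≤ 2 * C.rr m) : C.Fw (fp f) (C.ge f z).2 := by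
  have := (C.rad H hm).front _ (hf.fp C) (flp z) (by rwa [norm_flp])
  rwa [C.ge_fp] at this

lemma ge_gs (hf : C.Frm f) (hξ : C.Fw f ξ) (hq : ‖q‖ ≤ 2 * C.rr m) :
    C.gs f ξ q ∈ C.Dm f ∧ C.uv f (C.gs f ξ q) = C.W ξ (C.hy f q) ∧ (C.ge f (C.gs f ξ q)).1 = ξ :=
  C.gs_spec H hm hf hξ.1 (lt_of_lt_of_le (by norm_num) ((C.rad H hm).side f hf ξ hξ q hq))

lemma ge_gu (hf : C.Frm f) (hη : C.Fw (fp f) η) (hq : ‖q‖ ≤ 2 * C.rr m) :
    C.gu f η q ∈ C.Dm f ∧ C.uv f (C.gu f η q) = -C.W η (C.hy f q) ∧ (C.ge f (C.gu f η q)).2 = η :=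
  C.gu_spec H hm hf hη.1 (lt_of_lt_of_le (by norm_num) ((C.rad H hm).side _ (hf.fp C) η hη q hq))

lemma Bs_bd (hf : C.Frm f) (hξ : C.Fw f ξ) (hq : ‖q‖ ≤ 2 * C.rr m) (e : Euc m) :
    ‖e‖ ≤ 4 * ‖C.Bs f ξ q e‖ ∧ ‖C.Bs f ξ q e‖ ≤ 2 * ‖e‖ := by
  have h1 := C.le_Bs H hf (bas_ne0 hξ.1) q e
  have h2 := mul_le_mul_of_nonneg_right
    (((C.rad H hm).side f hf ξ hξ q hq).trans (le_abs_self _)) (norm_nonneg e)
  exact ⟨by linarith, (C.Bs_le H (bas_ne0 hξ.1) f q e).trans ((ContinuousLinearMap.le_opNorm _ _).trans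
    (mul_le_mul_of_nonneg_right ((C.rad H hm).J_le f hf q hq) (norm_nonneg _)))⟩

lemma ch_ge (hf : C.Frm f) (hz : ‖z‖ < 2 * C.rr m) : C.ch f (C.ge f z) = z :=
  (((C.rad H hm).inj f hf).mono ball_subset_closedBall).leftInvOn_invFunOn (mem_ball_zero_iff.2 hz)

lemma Tf_eq (hf' : C.Frm f') (hz' : ‖z'‖ < 2 * C.rr m) (h : C.ge f' z' = C.ge f z) :
    C.Tf f f' z = z' := by rw [Tf, ← h, C.ch_ge H hm hf' hz']

lemma mem_dm (hf' : C.Frm f') (hz : ‖z‖ < C.rr m) (hz' : ‖z'‖ < C.rr m)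
    (h : C.ge f' z' = C.ge f z) : z ∈ C.dm f f' ∧ C.Tf f f' z = z' :=
  ⟨⟨hz, z', mem_ball_zero_iff.2 hz', h⟩, C.Tf_eq H hm hf' (by linarith [C.rr_pos H hm]) h⟩

lemma Tf_spec (hf' : C.Frm f') (hz : z ∈ C.dm f f') :
    ‖C.Tf f f' z‖ < C.rr m ∧ C.ge f' (C.Tf f f' z) = C.ge f z := by
  obtain ⟨h1, z', h2, h3⟩ := hz
  rw [mem_ball_zero_iff] at h2
  rw [(C.mem_dm H hm hf' h1 h2 h3).2]
  exact ⟨h2, h3⟩


lemma Tf_symm (hf : C.Frm f) (hf' : C.Frm f') (hz : z ∈ C.dm f f') :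
    C.Tf f f' z ∈ C.dm f' f ∧ C.Tf f' f (C.Tf f f' z) = z ∧
      C.tm f' f (C.Tf f f' z) = -C.tm f f' z := by
  obtain ⟨h1, h2⟩ := C.Tf_spec H hm hf' hz
  obtain ⟨h3, h4⟩ := C.mem_dm H hm hf h1 hz.1 h2.symm
  exact ⟨h3, h4, by rw [tm, tm, h4, h2, neg_sub]⟩

lemma Tf_comp (hf' : C.Frm f') (hf'' : C.Frm f'') (hz : z ∈ C.dm f f')
    (hz' : C.Tf f f' z ∈ C.dm f' f'') :
    z ∈ C.dm f f'' ∧ C.Tf f f'' z = C.Tf f' f'' (C.Tf f f' z) ∧
      C.tm f f'' z = C.tm f f' z + C.tm f' f'' (C.Tf f f' z) := by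
  obtain ⟨h1, h2⟩ := C.Tf_spec H hm hf' hz
  obtain ⟨h3, h4⟩ := C.Tf_spec H hm hf'' hz'
  obtain ⟨h5, h6⟩ := C.mem_dm H hm hf'' hz.1 h3 (h4.trans h2)
  exact ⟨h5, h6, by rw [tm, tm, tm, h6, h2]; ring⟩


/-- geometric meaning -/
lemma hy_Tf (hf : C.Frm f) (hf' : C.Frm f') (hz : z ∈ C.dm f f') :
    C.hy f' (C.Tf f f' z).1 = C.gd (C.hy f z.1) (C.uv f z) (C.tm f f' z) ∧
      C.uv f' (C.Tf f f' z) = C.vel (C.hy f z.1) (C.uv f z) (C.tm f f' z) := by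
  obtain ⟨h1, h2⟩ := C.Tf_spec H hm hf' hz
  exact C.same_geod H (C.un_uv H hf (C.Dm_lt H hm hf hz.1))
    (C.un_uv H hf' (C.Dm_lt H hm hf' h1)) (congrArg Prod.fst h2.symm) (congrArg Prod.snd h2.symm)

lemma Tf_of_gd (hf : C.Frm f) (hf' : C.Frm f') (hz : ‖z‖ < C.rr m) (hz' : ‖z'‖ < C.rr m)
    (h1 : C.hy f' z'.1 = C.gd (C.hy f z.1) (C.uv f z) t)
    (h2 : C.uv f' z' = C.vel (C.hy f z.1) (C.uv f z) t) :
    z ∈ C.dm f f' ∧ C.Tf f f' z = z' ∧ C.tm f f' z = t := by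
  obtain ⟨h3, h4⟩ := C.ge_of_gd H (C.un_uv H hf (C.Dm_lt H hm hf hz)) h1 h2
  obtain ⟨h5, h6⟩ := C.mem_dm H hm hf' hz hz' h3
  exact ⟨h5, h6, by rw [tm, h6]; exact h4⟩

lemma Tf_zero (hf : C.Frm f) (hf' : C.Frm f') (h : C.Ov f f' t) :
    0 ∈ C.dm f f' ∧ C.Tf f f' 0 = 0 ∧ C.tm f f' 0 = t := by
  have h0 : ‖(0 : ZZ m)‖ < C.rr m := by simpa using C.rr_pos H hm
  exact C.Tf_of_gd H hm hf hf' h0 h0
    (by simpa only [Prod.fst_zero, C.hy_zero, C.uv_zero H hf] using h.1)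
    (by simpa only [Prod.fst_zero, C.hy_zero, C.uv_zero H hf, C.uv_zero H hf'] using h.2)

lemma dd_tm (hf : C.Frm f) (hf' : C.Frm f') (hz : z ∈ C.dm f f') :
    |(|C.tm f f' z| - C.dd f.1 f'.1)| ≤ ‖z.1‖ + ‖(C.Tf f f' z).1‖ := by
  have ha := H.a_pos.le
  rw [← (C.un_uv H hf (C.Dm_lt H hm hf hz.1)).dd_gd_zero C (C.tm f f' z), ← (C.hy_Tf H hm hf hf' hz).1,
    ← C.dd_hy hf, ← C.dd_hy hf']
  have h1 := abs_le.1 (C.abs_dd_sub_le ha (C.hy f z.1) (C.hy f' (C.Tf f f' z).1) f'.1)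
  have h2 := abs_le.1 (C.abs_dd_sub_le ha f'.1 (C.hy f z.1) f.1)
  rw [C.dd_comm _ f'.1, C.dd_comm _ f'.1] at h1
  rw [C.dd_comm _ f.1, C.dd_comm _ f.1] at h2
  exact abs_le.2 ⟨by linarith, by linarith⟩

/-- LOCAL REPRESENTATION, jointly in both frames (with the margin `2 rr`) -/
lemma loc_rep (hf : C.Frm f) (hf' : C.Frm f') (hz : z ∈ C.Dm f) (hz' : ‖z'‖ < 2 * C.rr m)
    (h : C.ge f' z' = C.ge f z) :
    ∃ (T : (FF n N m × FF n N m) × ZZ m → ZZ m) (τ : (FF n N m × FF n N m) × ZZ m → ℝ),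
      ContDiffAt ℝ ∞ T ((f, f'), z) ∧ ContDiffAt ℝ ∞ τ ((f, f'), z) ∧ T ((f, f'), z) = z' ∧
      ∀ᶠ k in 𝓝 ((f, f'), z), C.Frm k.1.1 → C.Frm k.1.2 →
        C.ge k.1.2 (T k) = C.ge k.1.1 k.2 ∧ C.Tf k.1.1 k.1.2 k.2 = T k ∧
          C.tm k.1.1 k.1.2 k.2 = τ k := by
  have hu := C.un_uv H hf hz
  have hz2 := C.Dm_of_le H hm hf' hz'.le
  obtain ⟨e1, e2⟩ := C.same_geod H hu (C.un_uv H hf' hz2) (congrArg Prod.fst h.symm)
    (congrArg Prod.snd h.symm)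
  obtain ⟨τ, Z, t1, z1, t2, z2, hev⟩ := C.loc_cross H hm hf' hz2 hu e1 e2
  have c : ContDiffAt ℝ ∞ (fun k : (FF n N m × FF n N m) × ZZ m =>
      (k.1.2, C.hy k.1.1 k.2.1, C.uv k.1.1 k.2)) ((f, f'), z) :=
    ContDiffAt.prodMk (by fun_prop) ((C.contDiff_hy.contDiffAt.comp _
      (f := fun k : (FF n N m × FF n N m) × ZZ m => (k.1.1, k.2.1)) (by fun_prop)).prodMk
      ((C.contDiffAt_uv H hf hz).comp ((f, f'), z)
        (f := fun k : (FF n N m × FF n N m) × ZZ m => (k.1.1, k.2)) (by fun_prop)))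
  have cZ := z1.comp ((f, f'), z) c
  refine ⟨_, _, cZ, t1.comp ((f, f'), z) c, z2, ?_⟩
  filter_upwards [c.continuousAt.eventually hev, ((show Continuous
      fun k : (FF n N m × FF n N m) × ZZ m => (k.1.1, k.2) by fun_prop).tendsto _).eventually
      (C.ev_Dm H hf hz), cZ.continuousAt.norm.eventually (gt_mem_nhds (a := 2 * C.rr m)
        (by simpa only [Function.comp, z2] using hz'))] with k k1 k2 k3 h1 h2
  have hu' := C.un_uv H h1 k2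
  obtain ⟨g1, g2⟩ := C.ge_of_gd H hu' (k1 h2 hu').1 (k1 h2 hu').2
  have g3 := C.Tf_eq H hm (f := k.1.1) (z := k.2) h2 k3 g1
  exact ⟨g1, g3, by rw [tm, g3]; exact g2⟩

lemma ev_dm (hf : C.Frm f) (hf' : C.Frm f') (hz : z ∈ C.dm f f') :
    ∀ᶠ k : (FF n N m × FF n N m) × ZZ m in 𝓝 ((f, f'), z), C.Frm k.1.1 → C.Frm k.1.2 →
      k.2 ∈ C.dm k.1.1 k.1.2 := by
  obtain ⟨h1, h2⟩ := C.Tf_spec H hm hf' hz
  obtain ⟨T, τ, c1, -, c2, hev⟩ := C.loc_rep H hm hf hf' (C.Dm_lt H hm hf hz.1)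
    (by linarith [C.rr_pos H hm]) h2
  filter_upwards [hev, c1.continuousAt.norm.eventually (gt_mem_nhds (a := C.rr m) (by simpa only [c2] using h1)),
    (continuous_snd.norm.tendsto ((f, f'), z)).eventually (gt_mem_nhds hz.1)] with k k1 k2 k3 h1 h2
  exact ⟨k3, _, mem_ball_zero_iff.2 k2, (k1 h1 h2).1⟩

lemma isOpen_dm (hf : C.Frm f) (hf' : C.Frm f') : IsOpen (C.dm f f') :=
  isOpen_iff_mem_nhds.2 fun z hz => (((Continuous.prodMk_right (f, f')).tendsto z).eventually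
    (C.ev_dm H hm hf hf' hz)).mono fun _ h => h hf hf'

lemma contDiffAt_Tf (hf : C.Frm f) (hf' : C.Frm f') (hz : z ∈ C.dm f f') :
    ContDiffAt ℝ ∞ (C.Tf f f') z := by
  obtain ⟨h1, h2⟩ := C.Tf_spec H hm hf' hz
  obtain ⟨T, τ, c1, -, -, hev⟩ := C.loc_rep H hm hf hf' (C.Dm_lt H hm hf hz.1)
    (by linarith [C.rr_pos H hm]) h2
  exact (c1.comp z (f := fun w => ((f, f'), w)) (by fun_prop)).congr_of_eventuallyEq
    ((((Continuous.prodMk_right (f, f')).tendsto z).eventually hev).mono fun _ h => (h hf hf').2.1)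

lemma contDiffAt_tm (hf : C.Frm f) (hf' : C.Frm f') (hz : z ∈ C.dm f f') :
    ContDiffAt ℝ ∞ (C.tm f f') z := by
  obtain ⟨h1, h2⟩ := C.Tf_spec H hm hf' hz
  obtain ⟨T, τ, -, c1, -, hev⟩ := C.loc_rep H hm hf hf' (C.Dm_lt H hm hf hz.1)
    (by linarith [C.rr_pos H hm]) h2
  exact (c1.comp z (f := fun w => ((f, f'), w)) (by fun_prop)).congr_of_eventuallyEq
    ((((Continuous.prodMk_right (f, f')).tendsto z).eventually hev).mono fun _ h => (h hf hf').2.2)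

/-- the charts are open maps, jointly in the frame (`loc_cross` at `ft ξ η s`,
`continuousOn_ft`, `continuousOn_W`) -/
lemma ge_nhds (hf : C.Frm f) (hz : z ∈ C.Dm f) {V : Set (ZZ m)} (hV : V ∈ 𝓝 z) :
    ∀ᶠ k : FF n N m × Euc n × Euc n in 𝓝 (f, C.ge f z), C.Frm k.1 → k.2 ∈ GG n →
      k.2 ∈ C.ge k.1 '' V := by
  have ha := H.a_pos
  have hu := C.un_uv H hf hz
  have hG := C.ge_GG H hf hz
  obtain ⟨τ, Z, -, z1, -, z2, hev⟩ := C.loc_cross H hm (t := 0) hf hz hu (C.gd_zero _ _).symm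
    (C.vel_zero _ _).symm
  set s := -C.b (C.ge f z).1 (C.hy f z.1)
  have e0 : C.ft (C.ge f z).1 (C.ge f z).2 s = C.hy f z.1 := C.ft_ep ha hu
  have c1 : ContinuousAt (fun k : FF n N m × Euc n × Euc n => C.ft k.2.1 k.2.2 s) (f, C.ge f z) :=
    ((C.continuousOn_ft ha).continuousAt ((isOpen_GO.prod isOpen_univ).mem_nhds
      (show (C.ge f z, s) ∈ GO n ×ˢ univ from ⟨GG_sub hG, trivial⟩))).comp_of_eq
      (f := fun k : FF n N m × Euc n × Euc n => (k.2, s)) (by fun_prop) rfl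
  have c2 := (C.continuousAt_W H (bas_ne0 hG.1) _).comp_of_eq
    (ContinuousAt.prodMk (by fun_prop) c1 : ContinuousAt
      (fun k : FF n N m × Euc n × Euc n => (k.2.1, C.ft k.2.1 k.2.2 s)) (f, C.ge f z)) rfl
  have c3 : Tendsto (fun k : FF n N m × Euc n × Euc n =>
      (k.1, C.ft k.2.1 k.2.2 s, C.W k.2.1 (C.ft k.2.1 k.2.2 s))) (𝓝 (f, C.ge f z))
      (𝓝 (f, C.hy f z.1, C.uv f z)) := by
    have := (continuousAt_fst.prodMk (c1.prodMk c2)).tendsto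
    simpa only [Function.comp, e0, C.W_ge H hf hz] using this
  filter_upwards [c3.eventually hev, (z1.continuousAt.tendsto.comp c3).eventually (z2 ▸ hV)]
    with k k1 k2 h1 h2
  have hu' := C.un_W ha (bas_ne0 h2.1) (C.ft k.2.1 k.2.2 s)
  refine ⟨_, k2, ((C.ge_of_gd H hu' (k1 h1 hu').1 (k1 h1 hu').2).1).trans ?_⟩
  exact Prod.ext (C.ep_ft ha h2 s).1 (C.ep_ft ha h2 s).2


/-! ### symmetries -/

lemma dm_fg (hf : C.Frm f) (hf' : C.Frm f') (hg : C.Deck g) :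
    C.dm (fg g f) (fg g f') = C.dm f f' := by
  ext z
  refine and_congr_right fun hz => exists_congr fun w => and_congr_right fun hw => ?_
  have h1 := C.Dm_lt H hm hf hz
  have h2 := C.Dm_lt H hm hf' (mem_ball_zero_iff.1 hw)
  rw [C.ge_fg H hf hg h1, C.ge_fg H hf' hg h2]
  refine ⟨fun e => Prod.ext ?_ ?_, fun e => by rw [e]⟩
  · exact C.act_inj H.a_pos hg (C.ge_GG H hf' h2).1 (C.ge_GG H hf h1).1 (congrArg Prod.fst e)
  · exact C.act_inj H.a_pos hg (C.ge_GG H hf' h2).2.1 (C.ge_GG H hf h1).2.1 (congrArg Prod.snd e)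

lemma Tf_fg (hf : C.Frm f) (hf' : C.Frm f') (hg : C.Deck g) (hz : z ∈ C.dm f f') :
    C.Tf (fg g f) (fg g f') z = C.Tf f f' z ∧ C.tm (fg g f) (fg g f') z = C.tm f f' z := by
  obtain ⟨h1, h2⟩ := C.hy_Tf H hm hf hf' hz
  exact (C.Tf_of_gd H hm (hf.fg C hg) (hf'.fg C hg) hz.1 (C.Tf_spec H hm hf' hz).1
    (by rw [C.hy_fg hf' hg, C.hy_fg hf hg, C.uv_fg hf hg, h1,
      hg.gd_eq C (C.un_uv H hf (C.Dm_lt H hm hf hz.1)).mem])
    (by rw [C.uv_fg hf' hg, C.hy_fg hf hg, C.uv_fg hf hg, h2, hg.vel_eq C])).2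

omit H hm in
lemma dm_fp : flp z ∈ C.dm (fp f) (fp f') ↔ z ∈ C.dm f f' := by
  refine and_congr (by rw [norm_flp]) ⟨fun ⟨w, h1, h2⟩ => ⟨flp w, ?_, ?_⟩, fun ⟨w, h1, h2⟩ =>
    ⟨flp w, ?_, by rw [C.ge_fp, C.ge_fp, h2]⟩⟩
  · rwa [mem_ball_zero_iff, norm_flp, ← mem_ball_zero_iff]
  · rw [← flp_flp w, C.ge_fp, C.ge_fp] at h2
    exact Prod.swap_injective h2
  · rwa [mem_ball_zero_iff, norm_flp, ← mem_ball_zero_iff]

lemma Tf_fp (hf : C.Frm f) (hf' : C.Frm f') (hz : z ∈ C.dm f f') :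
    C.Tf (fp f) (fp f') (flp z) = flp (C.Tf f f' z) ∧
      C.tm (fp f) (fp f') (flp z) = -C.tm f f' z := by
  obtain ⟨h1, h2⟩ := C.hy_Tf H hm hf hf' hz
  exact (C.Tf_of_gd H hm (hf.fp C) (hf'.fp C) (by rw [norm_flp]; exact hz.1)
    (by rw [norm_flp]; exact (C.Tf_spec H hm hf' hz).1)
    (by rw [C.uv_fp, C.gd_neg, neg_neg]; exact h1)
    (by rw [C.uv_fp, C.uv_fp, h2, C.hy_fp, show (flp z).1 = z.1 from rfl,
      C.vel_neg (C.un_uv H hf (C.Dm_lt H hm hf hz.1)).mem, neg_neg])).2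

end Crest.Agent.N221.Cov
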