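import Crest.Agent.N221.Ch.Defs
import Crest.Agent.N221.Ch.Crs

-- ▼ part N221/Ch/Jet
section

/-! Row 221, block Ch: families with jointly continuous jets (abstract). -/

set_option autoImplicit false
set_option linter.unusedSectionVars false
set_option linter.unusedVariables false

open MeasureTheory Set Filter Topology Metric
open scoped ContDiff RealInnerProductSpace ENNReal
open Crest.GeometryTopology.Submanifold
open Crest.Agent.R241.DDefs Crest.Agent.R241.D2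
open Crest.Agent.R208.J Crest.Agent.R208.L

noncomputable section

namespace Crest.Agent.N221

variable {P P' E V V' : Type} [TopologicalSpace P] [TopologicalSpace P']
  [NormedAddCommGroup E] [NormedSpace ℝ E] [NormedAddCommGroup V] [NormedSpace ℝ V]
  [NormedAddCommGroup V'] [NormedSpace ℝ V'] {F : P → E → V} {F' : P → E → V'} {K K' : Set (P × E)}

namespace Jet

lemma le_inf (j : ℕ) : (j : ℕ∞ω) ≤ (∞ : ℕ∞ω) := by exact_mod_cast le_top

lemma germ {f g : E → V} {x : E} (e : f =ᶠ[𝓝 x] g) (j : ℕ) :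
    iteratedFDeriv ℝ j f x = iteratedFDeriv ℝ j g x := (e.iteratedFDeriv ℝ j).eq_of_nhds

/-- the Taylor composition is continuous -/
lemma cont_tc {q : P → FormalMultilinearSeries ℝ V V'} {p : P → FormalMultilinearSeries ℝ E V}
    {s : Set P} {x : P} (hq : ∀ i, ContinuousWithinAt (fun y => q y i) s x)
    (hp : ∀ i, ContinuousWithinAt (fun y => p y i) s x) (j : ℕ) :
    ContinuousWithinAt (fun y => (q y).taylorComp (p y) j) s x := by
  refine tendsto_finsetSum _ fun c _ => ?_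
  have h1 : ContinuousWithinAt (fun y => c.compAlongOrderedFinpartitionL ℝ E V V' (q y c.length)) s x :=
    (c.compAlongOrderedFinpartitionL ℝ E V V').continuous.continuousAt.comp_continuousWithinAt (hq _)
  exact h1.eval (continuousWithinAt_pi.2 fun m => hp (c.partSize m))

/-- pointwise continuity is enough in finite dimension -/
lemma cont_ml [FiniteDimensional ℝ E] (j : ℕ) {f : P → E [×j]→L[ℝ] V}
    (h : ∀ v, Continuous fun x => f x v) : Continuous f := by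
  induction j with
  | zero =>
    have := (continuousMultilinearCurryFin0 ℝ E V).symm.continuous.comp (h 0)
    refine this.congr fun x => ?_
    ext v
    simp [Subsingleton.elim v 0]
  | succ j ih =>
    have h1 : Continuous fun x => continuousMultilinearCurryLeftEquiv ℝ (fun _ : Fin (j + 1) => E) V (f x) :=
      continuous_clm_apply.2 fun y => ih fun v => h (Fin.cons y v)
    exact (continuousMultilinearCurryLeftEquiv ℝ (fun _ : Fin (j + 1) => E) V).comp_continuous_iff.1 h1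

end Jet

open Jet

lemma JC.mono (h : JC F K) (hK : K' ⊆ K) : JC F K' :=
  ⟨fun k hk => h.sm k (hK hk), fun j => (h.cont j).mono hK⟩

lemma JC.continuousOn (h : JC F K) : ContinuousOn (fun k : P × E => F k.1 k.2) K :=
  ((continuousMultilinearCurryFin0 ℝ E V).continuous.comp_continuousOn (h.cont 0)).congr
    fun _ _ => rfl

lemma JC.continuousOn_fderiv (h : JC F K) :
    ContinuousOn (fun k : P × E => fderiv ℝ (F k.1) k.2) K :=
  ((continuousMultilinearCurryFin1 ℝ E V).continuous.comp_continuousOn (h.cont 1)).congr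
    fun _ _ => by ext v; simp

/-- germs agree -/
lemma JC.congr {F₁ : P → E → V} (h : JC F K) (e : ∀ k ∈ K, F₁ k.1 =ᶠ[𝓝 k.2] F k.1) : JC F₁ K :=
  ⟨fun k hk => (h.sm k hk).congr_of_eventuallyEq (e k hk),
    fun j => (h.cont j).congr fun k hk => germ (e k hk) j⟩


/-- change of the parameter space -/
lemma JC.par (h : JC F K) {φ : P' → P} {K₁ : Set (P' × E)}
    (hφ : ContinuousOn (fun k : P' × E => φ k.1) K₁) (hK : ∀ k ∈ K₁, (φ k.1, k.2) ∈ K) :
    JC (fun p => F (φ p)) K₁ :=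
  ⟨fun k hk => h.sm _ (hK k hk), fun j => (h.cont j).comp (hφ.prodMk continuousOn_snd) hK⟩

lemma JC.prodMk (h : JC F K) (h' : JC F' K) : JC (fun p x => (F p x, F' p x)) K :=
  ⟨fun k hk => (h.sm k hk).prodMk (h'.sm k hk), fun j =>
    ((ContinuousMultilinearMap.prodL ℝ (fun _ : Fin j => E) V V').continuous.comp_continuousOn
      ((h.cont j).prodMk (h'.cont j))).congr fun k hk =>
        iteratedFDeriv_prodMk (h.sm k hk) (h'.sm k hk) (le_inf j)⟩

lemma JC.id : JC (fun (_ : P) (x : E) => x) K :=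
  ⟨fun _ _ => contDiffAt_id, fun j =>
    ((contDiff_id.continuous_iteratedFDeriv (le_inf j)).comp continuous_snd).continuousOn⟩

lemma JC.const {c : P → V} (hc : ContinuousOn (fun k : P × E => c k.1) K) :
    JC (fun p (_ : E) => c p) K := by
  refine ⟨fun _ _ => contDiffAt_const, fun j => ?_⟩
  cases j with
  | zero => exact (continuousMultilinearCurryFin0 ℝ E V).symm.continuous.comp_continuousOn hc
  | succ j =>
    simp only [iteratedFDeriv_succ_const]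
    exact continuousOn_const

/-- local representation by jointly smooth maps -/
lemma JC.of_rep {Q : Type} [NormedAddCommGroup Q] [NormedSpace ℝ Q] {F : Q → E → V}
    {K : Set (Q × E)} {A : Set Q} (hA : ∀ k ∈ K, k.1 ∈ A)
    (h : ∀ k ∈ K, ∃ T : Q × E → V, ContDiffAt ℝ ∞ T k ∧
      ∀ᶠ k' in 𝓝 k, k'.1 ∈ A → F k'.1 k'.2 = T k') : JC F K := by
  have g : ∀ {T : Q × E → V} {k : Q × E}, k.1 ∈ A → (∀ᶠ k' in 𝓝 k, k'.1 ∈ A → F k'.1 k'.2 = T k') →
      F k.1 =ᶠ[𝓝 k.2] T ∘ fun x => (k.1, x) := fun {T k} hk e =>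
    (((Continuous.prodMk_right k.1).tendsto k.2).eventually e).mono fun x hx => hx hk
  have hp : JC (fun (q : Q) (x : E) => (q, x)) K := (JC.const continuousOn_fst).prodMk JC.id
  refine ⟨fun k hk => ?_, fun j k hk => ?_⟩
  · obtain ⟨T, hT, e⟩ := h k hk
    exact (ContDiffAt.comp k.2 hT (hp.sm k hk)).congr_of_eventuallyEq (g (hA k hk) e)
  · obtain ⟨T, hT, e⟩ := h k hk
    refine (cont_tc (q := fun k' => ftaylorSeries ℝ T k')
      (p := fun k' : Q × E => ftaylorSeries ℝ (fun x => (k'.1, x)) k'.2)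
      (fun i => (hT.continuousAt_iteratedFDeriv (le_inf i)).continuousWithinAt)
      (fun i => hp.cont i k hk) j).congr_of_eventuallyEq_of_mem ?_ hk
    filter_upwards [self_mem_nhdsWithin, mem_nhdsWithin_of_mem_nhds e.eventually_nhds,
      mem_nhdsWithin_of_mem_nhds ((hT.of_le (le_inf j)).eventually (by simp))] with k' hk' e' hT'
    rw [germ (g (hA k' hk') e') j]
    exact iteratedFDeriv_comp hT' ((hp.sm k' hk').of_le (le_inf j)) le_rfl

/-- jointly smooth families (partial iterated derivative = iterated derivative composed with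
`inr`, `ContinuousLinearMap.iteratedFDeriv_comp_right` after translation) -/
lemma JC.of_smooth {Q : Type} [NormedAddCommGroup Q] [NormedSpace ℝ Q] {T : Q × E → V}
    {K : Set (Q × E)} (h : ∀ k ∈ K, ContDiffAt ℝ ∞ T k) : JC (fun p x => T (p, x)) K :=
  JC.of_rep (A := univ) (fun _ _ => trivial) fun k hk => ⟨T, h k hk, .of_forall fun _ _ => rfl⟩

/-- smooth maps into `C(X, V)` -/
lemma JC.eval {Q X : Type} [NormedAddCommGroup Q] [NormedSpace ℝ Q] [TopologicalSpace X]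
    [CompactSpace X] [FiniteDimensional ℝ E] {B : Q × E → C(X, V)} (hB : ContDiff ℝ ∞ B) :
    JC (fun (p : Q × X) x => B (p.1, x) p.2) univ := by
  have h : JC (fun q x => B (q, x)) univ := JC.of_smooth fun _ _ => hB.contDiffAt
  refine ⟨fun k _ => (ContinuousMap.evalCLM ℝ k.1.2 : C(X, V) →L[ℝ] V).contDiff.contDiffAt.comp k.2
    (h.sm (k.1.1, k.2) trivial), fun j => Continuous.continuousOn (cont_ml j fun v => ?_)⟩
  have h1 : Continuous fun k : (Q × X) × E => iteratedFDeriv ℝ j (fun x => B (k.1.1, x)) k.2 v :=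
    ((continuousOn_univ.1 (h.cont j)).comp (f := fun k : (Q × X) × E => (k.1.1, k.2))
      (by fun_prop)).eval_const v
  refine (h1.eval (g := fun k : (Q × X) × E => k.1.2) (by fun_prop)).congr fun k => ?_
  exact (DFunLike.congr_fun ((ContinuousMap.evalCLM ℝ k.1.2 : C(X, V) →L[ℝ] V).iteratedFDeriv_comp_left
    (h.sm (k.1.1, k.2) trivial) (le_inf j)) v).symm

/-- composition (`iteratedFDeriv_comp`, `taylorComp` is a finite sum of continuous terms) -/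
lemma JC.comp {Φ : P → V → V'} {K₁ : Set (P × V)} (hΦ : JC Φ K₁) (h : JC F K)
    (hK : ∀ k ∈ K, (k.1, F k.1 k.2) ∈ K₁) : JC (fun p x => Φ p (F p x)) K := by
  refine ⟨fun k hk => ContDiffAt.comp k.2 (hΦ.sm _ (hK k hk)) (h.sm k hk), fun j => ?_⟩
  refine ContinuousOn.congr (fun k hk => cont_tc
    (q := fun k : P × E => ftaylorSeries ℝ (Φ k.1) (F k.1 k.2))
    (p := fun k : P × E => ftaylorSeries ℝ (F k.1) k.2) (fun i => ?_) (fun i => h.cont i k hk) j)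
    fun k hk => iteratedFDeriv_comp (g := Φ k.1) (f := F k.1) (hΦ.sm _ (hK k hk)) (h.sm k hk) (le_inf j)
  exact (hΦ.cont i).comp (continuousOn_fst.prodMk h.continuousOn) hK k hk

lemma JC.smooth_comp {φ : V → V'} (h : JC F K) (hφ : ∀ k ∈ K, ContDiffAt ℝ ∞ φ (F k.1 k.2)) :
    JC (fun p x => φ (F p x)) K :=
  JC.comp (Φ := fun _ => φ) (K₁ := {k | ContDiffAt ℝ ∞ φ k.2}) ⟨fun _ hk => hk, fun j k hk =>
    ((ContDiffAt.continuousAt_iteratedFDeriv (f := φ) (n := ∞) hk (le_inf j)).comp continuousAt_snd).continuousWithinAt⟩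
    h hφ

lemma JC.fderiv (h : JC F K) : JC (fun p x => fderiv ℝ (F p) x) K :=
  ⟨fun k hk => (h.sm k hk).fderiv_right (by simp), fun j =>
    ((continuousMultilinearCurryRightEquiv' ℝ j E V).continuous.comp_continuousOn
      (h.cont (j + 1))).congr fun k _ => by
        simp only [Function.comp_apply, iteratedFDeriv_succ_eq_comp_right,
          LinearIsometryEquiv.apply_symm_apply]⟩

lemma JC.add {F₁ : P → E → V} (h : JC F K) (h' : JC F₁ K) : JC (fun p x => F p x + F₁ p x) K :=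
  (h.prodMk h').smooth_comp (φ := fun z : V × V => z.1 + z.2) fun _ _ =>
    contDiffAt_fst.add contDiffAt_snd

lemma JC.bdd (h : JC F K) (hK : IsCompact K) : JB F K := fun j =>
  hK.exists_bound_of_continuousOn (h.cont j)

omit [TopologicalSpace P] in
lemma JB.mono (h : JB F K) (hK : K' ⊆ K) : JB F K' := fun j =>
  (h j).imp fun _ hB k hk => hB k (hK hk)

omit [TopologicalSpace P] in
/-- transfer of bounds along a symmetry -/
lemma JB.of_germ (h : JB F K) (e : ∀ k ∈ K', ∃ p, (p, k.2) ∈ K ∧ F k.1 =ᶠ[𝓝 k.2] F p) :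
    JB F K' := fun j => (h j).imp fun _ hB k hk => by
  obtain ⟨p, hp, e'⟩ := e k hk
  rw [germ e' j]
  exact hB _ hp

end Crest.Agent.N221
end
end

-- ▼ part N221/Ch/Unif

/-! Row 221, block Ch: continuity of all jets in the parameters, uniform `C^k` bounds. -/

set_option autoImplicit false
set_option linter.unusedSectionVars false
set_option linter.unusedVariables false
set_option maxHeartbeats 400000

open MeasureTheory Set Filter Topology Metric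
open scoped ContDiff RealInnerProductSpace ENNReal
open Crest.GeometryTopology.Submanifold
open Crest.Agent.R241.DDefs Crest.Agent.R241.D2
open Crest.Agent.R208.J Crest.Agent.R208.L

noncomputable section

namespace Crest.Agent.N221.ChU

variable {n m : ℕ}

lemma contDiff_det : ContDiff ℝ ∞ (fun T : Euc m →L[ℝ] Euc m => T.det) := by
  have h : (fun T : Euc m →L[ℝ] Euc m => T.det) = fun T => ∑ σ : Equiv.Perm (Fin m),
      ((Equiv.Perm.sign σ : ℤ) : ℝ) * ∏ k, T (EuclideanSpace.single k 1) (σ k) := by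
    funext T
    change LinearMap.det (T : Euc m →ₗ[ℝ] Euc m) = _
    rw [← LinearMap.det_toMatrix (EuclideanSpace.basisFun (Fin m) ℝ).toBasis, Matrix.det_apply']
    simp [LinearMap.toMatrix_apply]
  rw [h]
  refine ContDiff.sum fun σ _ => contDiff_const.mul (contDiff_prod fun k _ => ?_)
  exact (EuclideanSpace.proj (𝕜 := ℝ) (σ k)).contDiff.comp
    (contDiff_id.clm_apply (contDiff_const (c := (EuclideanSpace.single k (1 : ℝ) : Euc m))))

/-- from the sphere to `‖ξ‖ = 1` -/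
lemma jc_sph {Q E V : Type} [NormedAddCommGroup Q] [NormedSpace ℝ Q] [NormedAddCommGroup E]
    [NormedSpace ℝ E] [FiniteDimensional ℝ E] [NormedAddCommGroup V] [NormedSpace ℝ V]
    {Φ : Euc n → Euc n → V}
    (hB : ∃ B : Euc n → C(sphere (0 : Euc n) 1, V), ContDiff ℝ ∞ B ∧ ∀ y ξ, B y ξ = Φ ξ y)
    {ψ : Q × E → Euc n} (hψ : ContDiff ℝ ∞ ψ) :
    JC (fun (p : Q × Euc n) q => Φ p.2 (ψ (p.1, q))) {k | ‖k.1.2‖ = 1} := by
  obtain ⟨B, hB, e⟩ := hB
  have h := JC.eval (hB.comp hψ)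
  simp only [Function.comp_apply, e] at h
  refine ⟨fun k hk => h.sm ((k.1.1, ⟨k.1.2, mem_sphere_zero_iff_norm.2 hk⟩), k.2) trivial,
    fun j => continuousOn_iff_continuous_domRestrict.2 ?_⟩
  exact (continuousOn_univ.1 (h.cont j)).comp
    (f := fun k : {k : (Q × Euc n) × E | ‖k.1.2‖ = 1} =>
      ((k.1.1.1, (⟨k.1.1.2, mem_sphere_zero_iff_norm.2 k.2⟩ : sphere (0 : Euc n) 1)), k.1.2))
    (by fun_prop)

end Crest.Agent.N221.ChU

namespace Crest.Agent.N221.Cov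

variable {n N m : ℕ} {a : ℝ} {S : Set (Euc N)} {G : Geo n N (-(a ^ 2)) S} (C : Cov G)
variable {f f' f'' : FF n N m} {z z' : ZZ m} {x y y' ξ η : Euc n} {v u u' : Euc N} {q q' : Euc m}
  {g : Euc n → Euc n} {s t : ℝ}
variable (H : Hyp n N a S) (hm : m + 1 = n)
include H

/-! ### jets along the leaves, continuous in the frame and in `ξ` -/

lemma jc_W : JC (fun (p : FF n N m × Euc n) q => C.W p.2 (C.hy p.1 q)) {k | ‖k.1.2‖ = 1} :=
  ChU.jc_sph (Φ := C.W) (ψ := fun k : FF n N m × Euc m => C.hy k.1 k.2) (C.smooth_W H horT)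
    C.contDiff_hy

omit H in
lemma unif_jc_Jh (K : Set ((FF n N m × Euc n) × Euc m)) :
    JC (fun (p : FF n N m × Euc n) q => C.Jh p.1 q) K :=
  JC.of_smooth (T := fun k : (FF n N m × Euc n) × Euc m => C.Jh k.1.1 k.2) fun k _ =>
    (C.contDiff_Jh.comp (f := fun k : (FF n N m × Euc n) × Euc m => (k.1.1, k.2))
      (by fun_prop)).contDiffAt

omit H in
lemma unif_jc_pr (K : Set ((FF n N m × Euc n) × Euc m)) :
    JC (fun (p : FF n N m × Euc n) q => C.pr (C.hy p.1 q)) K :=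
  JC.of_smooth (T := fun k : (FF n N m × Euc n) × Euc m => C.pr (C.hy k.1.1 k.2)) fun k _ =>
    (C.pr_smooth.comp (C.contDiff_hy.comp
      (f := fun k : (FF n N m × Euc n) × Euc m => (k.1.1, k.2)) (by fun_prop))).contDiffAt


lemma jc_pq : JC (fun (p : FF n N m × Euc n) => C.pq p.1 p.2) {k | ‖k.1.2‖ = 1} :=
  ((C.unif_jc_Jh _).prodMk (C.jc_W H)).smooth_comp
    (φ := fun w : (Euc m →L[ℝ] Euc N) × Euc N => w.1.adjoint w.2) fun _ _ =>
      ((contDiff_adj.comp contDiff_fst).clm_apply contDiff_snd).contDiffAt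

lemma jc_HH : JC (fun (p : FF n N m × Euc n) => C.HH p.1 p.2) {k | ‖k.1.2‖ = 1} :=
  (C.jc_pq H).fderiv

lemma jc_gs : JC (fun (p : FF n N m × Euc n) => C.gs p.1 p.2) {k | ‖k.1.2‖ = 1} :=
  JC.id.prodMk (C.jc_pq H)


omit H in
/-- from continuity to uniform bounds for deck invariant families -/
lemma jb_of_jc {V : Type} [NormedAddCommGroup V] [NormedSpace ℝ V]
    {F : FF n N m × Euc n → Euc m → V} {A : FF n N m → Euc n → Prop} {R : ℝ}
    (hA : IsClosed {p : FF n N m × Euc n | C.Frm p.1 ∧ ‖p.2‖ = 1 ∧ A p.1 p.2})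
    (h : JC F {k | (C.Frm k.1.1 ∧ ‖k.1.2‖ = 1 ∧ A k.1.1 k.1.2) ∧ ‖k.2‖ ≤ R})
    (hinv : ∀ f ξ g, C.Frm f → ‖ξ‖ = 1 → A f ξ → C.Deck g →
      ∃ ξ', ‖ξ'‖ = 1 ∧ A (fg g f) ξ' ∧ F (fg g f, ξ') = F (f, ξ)) :
    JB F {k | (C.Frm k.1.1 ∧ ‖k.1.2‖ = 1 ∧ A k.1.1 k.1.2) ∧ ‖k.2‖ ≤ R} := by
  obtain ⟨D, -, hD⟩ := C.exists_deck
  have hK := (((C.isCompact_frm (m := m) D).prod (isCompact_sphere (0 : Euc n) 1)).inter_left
    hA).prod (isCompact_closedBall (0 : Euc m) R)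
  refine ((h.mono fun k hk => ⟨hk.1.1, mem_closedBall_zero_iff.1 hk.2⟩).bdd hK).of_germ
    fun k hk => ?_
  obtain ⟨g, hg, h1⟩ := hD k.1.1.1
  obtain ⟨ξ', h2, h3, h4⟩ := hinv k.1.1 k.1.2 g hk.1.1 hk.1.2.1 hk.1.2.2 hg
  have h5 := Frm.fg C hk.1.1 hg
  exact ⟨(fg g k.1.1, ξ'), ⟨⟨⟨h5, h2, h3⟩, ⟨h5, h1⟩, mem_sphere_zero_iff_norm.2 h2⟩,
    mem_closedBall_zero_iff.2 hk.2⟩, h4 ▸ EventuallyEq.rfl⟩

omit H in
lemma unif_closed : IsClosed {p : FF n N m × Euc n | C.Frm p.1 ∧ ‖p.2‖ = 1} :=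
  (C.isClosed_frm.preimage continuous_fst).inter (isClosed_eq (by fun_prop) continuous_const)

lemma unif_jb {V : Type} [NormedAddCommGroup V] [NormedSpace ℝ V]
    {F : FF n N m × Euc n → Euc m → V} (h : JC F {k | ‖k.1.2‖ = 1})
    (hinv : ∀ f ξ g, C.Frm f → C.Deck g → ξ ≠ 0 → F (fg g f, C.act g ξ) = F (f, ξ)) (R : ℝ) :
    JB F {k | C.Frm k.1.1 ∧ ‖k.1.2‖ = 1 ∧ ‖k.2‖ ≤ R} :=
  (C.jb_of_jc (A := fun _ _ => True) (R := R) (by simpa using C.unif_closed)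
    (h.mono fun k hk => hk.1.2.1) fun f ξ g hf hξ _ hg =>
      ⟨_, C.norm_act H.a_pos hg (bas_ne0 hξ), trivial, hinv f ξ g hf hg (bas_ne0 hξ)⟩).mono
    fun k hk => ⟨⟨hk.1, hk.2.1, trivial⟩, hk.2.2⟩


lemma jb_pq (R : ℝ) : JB (fun (p : FF n N m × Euc n) => C.pq p.1 p.2)
    {k | C.Frm k.1.1 ∧ ‖k.1.2‖ = 1 ∧ ‖k.2‖ ≤ R} :=
  C.unif_jb H (C.jc_pq H) (fun _ _ _ hf hg hξ => C.pq_fg H hf hg hξ) R

lemma jb_HH (R : ℝ) : JB (fun (p : FF n N m × Euc n) => C.HH p.1 p.2)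
    {k | C.Frm k.1.1 ∧ ‖k.1.2‖ = 1 ∧ ‖k.2‖ ≤ R} :=
  C.unif_jb H (C.jc_HH H) (fun _ _ _ hf hg hξ => C.HH_fg H hf hg hξ) R



include hm

lemma jc_aa {h c : ℝ} {α : TT N → ℝ} (hc : Co G h α c) :
    JC (fun (p : FF n N m × Euc n) => C.aa α c p.1 p.2)
      {k | C.Frm k.1.1 ∧ C.Fw k.1.1 k.1.2 ∧ ‖k.2‖ ≤ 2 * C.rr m} := by
  have hs : {k : (FF n N m × Euc n) × Euc m | C.Frm k.1.1 ∧ C.Fw k.1.1 k.1.2 ∧
      ‖k.2‖ ≤ 2 * C.rr m} ⊆ {k | ‖k.1.2‖ = 1} := fun k hk => hk.2.1.1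
  have h1 := (ChU.jc_sph (Φ := fun ξ y => α (rev (C.pr y, C.W ξ y)))
    (C.smooth_al H horT cobT hc.cont hc.cob) (C.contDiff_hy (m := m))).mono hs
  have h2 := (((C.unif_jc_pr _).prodMk ((C.jc_W H).mono hs)).prodMk (C.unif_jc_Jh _)).smooth_comp
    (φ := fun w : (Euc N × Euc N) × (Euc m →L[ℝ] Euc N) => Pv G w.1 ∘L w.2) fun _ _ =>
      ((contDiff_Pv.comp contDiff_fst).clm_comp contDiff_snd).contDiffAt
  have h3 := h2.smooth_comp (φ := fun B : Euc m →L[ℝ] Euc N => Real.log (B.adjoint ∘L B).det)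
    fun k hk => (ChU.contDiff_det.comp (contDiff_adj.clm_comp contDiff_id)).contDiffAt.log
      (det_gram_pos (J := C.Bs k.1.1 k.1.2 k.2) ((injective_iff_map_eq_zero _).2 fun e he => by
        have := (C.Bs_bd H hm hk.1 hk.2.1 hk.2.2 e).1
        rwa [he, norm_zero, mul_zero, norm_le_zero_iff] at this)).ne'
  exact (h1.prodMk h3).smooth_comp (φ := fun w : ℝ × ℝ => w.1 + w.2 / 2 + c / 2)
    fun _ _ => by fun_prop

lemma jb_aa {h c : ℝ} {α : TT N → ℝ} (hc : Co G h α c) :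
    JB (fun (p : FF n N m × Euc n) => C.aa α c p.1 p.2)
      {k | C.Frm k.1.1 ∧ C.Fw k.1.1 k.1.2 ∧ ‖k.2‖ ≤ 2 * C.rr m} := by
  have h1 : ContinuousOn (fun p : FF n N m × Euc n => ⟪C.W p.2 p.1.1, p.1.2.1⟫)
      {p | C.Frm p.1 ∧ ‖p.2‖ = 1} :=
    ContinuousOn.inner ((C.continuousOn_W H.a_pos).comp
      (f := fun p : FF n N m × Euc n => (p.2, p.1.1)) (by fun_prop) fun p hp => bas_ne0 hp.2)
      (by fun_prop)
  have h2 := (C.unif_closed (m := m)).isClosed_le (continuousOn_const (c := 1 / 2)) h1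
  refine (C.jb_of_jc (A := C.Fw) (R := 2 * C.rr m) ?_
    ((C.jc_aa H hm hc).mono fun k hk => ⟨hk.1.1, hk.1.2.2, hk.2⟩) fun f ξ g hf hξ hF hg =>
      ⟨_, C.norm_act H.a_pos hg (bas_ne0 hξ), C.Fw_fg H hg hF,
        C.aa_fg H α c hf hg (bas_ne0 hξ)⟩).mono fun k hk => ⟨⟨hk.1, hk.2.1.1, hk.2.1⟩, hk.2.2⟩
  convert h2 using 1
  exact Set.ext fun p => ⟨fun h => ⟨⟨h.1, h.2.1⟩, h.2.2.2⟩, fun h => ⟨h.1.1, h.1.2, h.1.2, h.2⟩⟩

lemma continuousOn_Ss : ContinuousOn (fun k : FF n N m × ZZ m => C.Ss k.1 k.2)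
    {k | C.Frm k.1 ∧ k.2 ∈ C.Dm k.1} :=
  (C.jc_HH H).continuousOn.comp
    (f := fun k : FF n N m × ZZ m => ((k.1, (C.ge k.1 k.2).1), k.2.1))
    ((continuousOn_fst.prodMk (C.continuousOn_ge H).fst).prodMk (by fun_prop))
    fun k hk => (C.ge_GG H hk.1 hk.2).1

lemma continuousOn_Su : ContinuousOn (fun k : FF n N m × ZZ m => C.Su k.1 k.2)
    {k | C.Frm k.1 ∧ k.2 ∈ C.Dm k.1} :=
  ((C.jc_HH H).continuousOn.comp
    (f := fun k : FF n N m × ZZ m => ((k.1, (C.ge k.1 k.2).2), k.2.1))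
    ((continuousOn_fst.prodMk (C.continuousOn_ge H).snd).prodMk (by fun_prop))
    fun k hk => (C.ge_GG H hk.1 hk.2).2.1).neg

/-! ### transition maps -/

omit H hm in
/-- the domain of the transition maps with the margin `2 rr` -/
def unifDom (m : ℕ) : Set ((FF n N m × FF n N m) × ZZ m) :=
  {k | C.Frm k.1.1 ∧ C.Frm k.1.2 ∧ k.2 ∈ C.Dm k.1.1 ∧
    ∃ z', ‖z'‖ < 2 * C.rr m ∧ C.ge k.1.2 z' = C.ge k.1.1 k.2}

lemma unif_jc_T : JC (fun p : FF n N m × FF n N m => C.Tf p.1 p.2) (C.unifDom m) ∧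
    JC (fun p : FF n N m × FF n N m => C.tm p.1 p.2) (C.unifDom m) := by
  constructor
  all_goals
    refine JC.of_rep (A := {p | C.Frm p.1 ∧ C.Frm p.2}) (fun k hk => ⟨hk.1, hk.2.1⟩) fun k hk => ?_
    obtain ⟨h1, h2, h3, z', h4, h5⟩ := hk
    obtain ⟨T, τ, hT, hτ, -, e⟩ := C.loc_rep H hm h1 h2 h3 h4 h5
  · exact ⟨T, hT, e.mono fun k' h hk' => (h hk'.1 hk'.2).2.1⟩
  · exact ⟨τ, hτ, e.mono fun k' h hk' => (h hk'.1 hk'.2).2.2⟩


/-- a compact set that meets every deck orbit -/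
lemma unif_cpt (R : ℝ) : ∃ K ⊆ C.unifDom m, IsCompact K ∧ ∀ f f' : FF n N m, C.Frm f → C.Frm f' →
    C.dd f.1 f'.1 ≤ R → ∃ g, C.Deck g ∧ ∀ z ∈ C.dm f f', ((fg g f, fg g f'), z) ∈ K := by
  have h0 := C.rr_pos H hm
  obtain ⟨D, -, hD⟩ := C.exists_deck
  have hB := isCompact_closedBall (0 : ZZ m) (C.rr m)
  have hK := (((C.isCompact_frm (m := m) D).prod (C.isCompact_frm (m := m) (D + R))).prod hB).prod hB
  have hd : ∀ {f : FF n N m} {z : ZZ m}, C.Frm f → z ∈ closedBall (0 : ZZ m) (C.rr m) →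
      z ∈ C.Dm f := fun hf hz => C.Dm_of_le H hm hf (by linarith [mem_closedBall_zero_iff.1 hz])
  have hc := hK.isClosed.isClosed_eq
    ((C.continuousOn_ge H).comp
      (f := fun w : ((FF n N m × FF n N m) × ZZ m) × ZZ m => (w.1.1.2, w.2)) (by fun_prop)
      fun w hw => ⟨hw.1.1.2.1, hd hw.1.1.2.1 hw.2⟩)
    ((C.continuousOn_ge H).comp
      (f := fun w : ((FF n N m × FF n N m) × ZZ m) × ZZ m => (w.1.1.1, w.1.2)) (by fun_prop)
      fun w hw => ⟨hw.1.1.1.1, hd hw.1.1.1.1 hw.1.2⟩)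
  refine ⟨_, ?_, (hK.of_isClosed_subset hc fun w hw => hw.1).image continuous_fst,
    fun f f' hf hf' hR => ?_⟩
  · rintro _ ⟨w, ⟨hw, e⟩, rfl⟩
    exact ⟨hw.1.1.1.1, hw.1.1.2.1, hd hw.1.1.1.1 hw.1.2, w.2,
      by linarith [mem_closedBall_zero_iff.1 hw.2], e⟩
  · obtain ⟨g, hg, h1⟩ := hD f.1
    refine ⟨g, hg, fun z hz => ?_⟩
    rw [← C.dm_fg H hm hf hf' hg] at hz
    obtain ⟨h2, z', h3, h4⟩ := hz
    have h5 := C.norm_le_of_dd H.a_pos.le (g f.1) (g f'.1)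
    rw [Deck.dd_eq C hg] at h5
    exact ⟨(((fg g f, fg g f'), z), z'), ⟨⟨⟨⟨⟨Frm.fg C hf hg, h1⟩, Frm.fg C hf' hg, h5.trans (add_le_add h1 hR)⟩,
      mem_closedBall_zero_iff.2 h2.le⟩, ball_subset_closedBall h3⟩, h4⟩, rfl⟩



/-- `JC.of_rep` (`loc_rep`) on the compact set of `((f, f'), z)`, `‖x‖ ≤ D`, `dd x x' ≤ R`,
`‖z‖ ≤ rr`, `ge f z ∈ ge f' '' closedBall 0 rr`; `Tf_fg` on the open set `dm` -/
lemma jb_Tf (R : ℝ) : JB (fun p : FF n N m × FF n N m => C.Tf p.1 p.2)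
    {k | C.Frm k.1.1 ∧ C.Frm k.1.2 ∧ C.dd k.1.1.1 k.1.2.1 ≤ R ∧ k.2 ∈ C.dm k.1.1 k.1.2} := by
  obtain ⟨K, h1, h2, h3⟩ := C.unif_cpt H hm R
  refine (((C.unif_jc_T H hm).1.mono h1).bdd h2).of_germ fun k hk => ?_
  obtain ⟨g, hg, h4⟩ := h3 _ _ hk.1 hk.2.1 hk.2.2.1
  refine ⟨_, h4 _ hk.2.2.2, ?_⟩
  filter_upwards [(C.isOpen_dm H hm hk.1 hk.2.1).mem_nhds hk.2.2.2] with z hz
  exact (C.Tf_fg H hm hk.1 hk.2.1 hg hz).1.symm

lemma jb_tm (R : ℝ) : JB (fun p : FF n N m × FF n N m => C.tm p.1 p.2)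
    {k | C.Frm k.1.1 ∧ C.Frm k.1.2 ∧ C.dd k.1.1.1 k.1.2.1 ≤ R ∧ k.2 ∈ C.dm k.1.1 k.1.2} := by
  obtain ⟨K, h1, h2, h3⟩ := C.unif_cpt H hm R
  refine (((C.unif_jc_T H hm).2.mono h1).bdd h2).of_germ fun k hk => ?_
  obtain ⟨g, hg, h4⟩ := h3 _ _ hk.1 hk.2.1 hk.2.2.1
  refine ⟨_, h4 _ hk.2.2.2, ?_⟩
  filter_upwards [(C.isOpen_dm H hm hk.1 hk.2.1).mem_nhds hk.2.2.2] with z hz
  exact (C.Tf_fg H hm hk.1 hk.2.1 hg hz).2.symm

lemma unif_jc_gs : JC (fun p : (FF n N m × FF n N m) × Euc n => C.gs p.1.1 p.2)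
    {k | ‖k.1.2‖ = 1} :=
  (C.jc_gs H).par (φ := fun p : (FF n N m × FF n N m) × Euc n => (p.1.1, p.2)) (by fun_prop)
    fun k hk => hk

lemma unif_jc_lf : JC (fun p : (FF n N m × FF n N m) × Euc n => C.lf p.1.1 p.1.2 p.2)
    {k | ‖k.1.2‖ = 1 ∧ (k.1.1, C.gs k.1.1.1 k.1.2 k.2) ∈ C.unifDom m} :=
  (((C.unif_jc_T H hm).1.par (φ := fun p : (FF n N m × FF n N m) × Euc n => p.1)
    (K₁ := {k | (k.1.1, k.2) ∈ C.unifDom m}) (by fun_prop) fun k hk => hk).comp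
    ((C.unif_jc_gs H hm).mono fun k hk => hk.1) fun k hk => hk.2).smooth_comp
    (φ := fun w : ZZ m => w.1) fun _ _ => contDiffAt_fst


/-- `norm_iteratedFDeriv_comp_le` or compactness again -/
lemma jb_lf (R : ℝ) : JB (fun p : (FF n N m × FF n N m) × Euc n => C.lf p.1.1 p.1.2 p.2)
    {k | C.Frm k.1.1.1 ∧ C.Frm k.1.1.2 ∧ C.dd k.1.1.1.1 k.1.1.2.1 ≤ R ∧ C.Fw k.1.1.1 k.1.2 ∧
      C.gs k.1.1.1 k.1.2 k.2 ∈ C.dm k.1.1.1 k.1.1.2} := by
  obtain ⟨K, h1, h2, h3⟩ := C.unif_cpt H hm R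
  have hc := ((continuousOn_fst.fst).prodMk
    (C.unif_jc_gs H hm).continuousOn).preimage_isClosed_of_isClosed
    (isClosed_eq (by fun_prop) continuous_const) h2.isClosed
  have hK := ((h2.prod (isCompact_sphere (0 : Euc n) 1)).image
    (f := fun w => ((w.1.1, w.2), w.1.2.1)) (by fun_prop)).of_isClosed_subset hc fun k hk =>
      ⟨(_, k.1.2), ⟨hk.2, mem_sphere_zero_iff_norm.2 hk.1⟩, rfl⟩
  refine (((C.unif_jc_lf H hm).mono fun k hk => ⟨hk.1, h1 hk.2⟩).bdd hK).of_germ fun k hk => ?_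
  obtain ⟨hf, hf', hR, hF, hz⟩ := hk
  obtain ⟨g, hg, h4⟩ := h3 _ _ hf hf' hR
  have h0 := bas_ne0 hF.1
  have e := C.gs_fg H hf hg h0
  refine ⟨((fg g k.1.1.1, fg g k.1.1.2), C.act g k.1.2), ⟨C.norm_act H.a_pos hg h0, ?_⟩, ?_⟩
  · show ((fg g k.1.1.1, fg g k.1.1.2), C.gs (fg g k.1.1.1) (C.act g k.1.2) k.2) ∈ K
    rw [e]
    exact h4 _ hz
  · have hgs : Continuous (C.gs k.1.1.1 k.1.2) :=
      continuous_id.prodMk (C.contDiff_pq H h0 _).continuous
    filter_upwards [hgs.continuousAt.preimage_mem_nhds ((C.isOpen_dm H hm hf hf').mem_nhds hz)]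
      with q hq
    simp only [lf, e, (C.Tf_fg H hm hf hf' hg hq).1]

end Crest.Agent.N221.Cov
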