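import Crest.Agent.N221.Ch.Unif
import Crest.Agent.N221.C.Two
import Crest.Agent.N221.Ch.Sym

-- ▼ part N221/Ch/Box
section

/-! Row 221, block Ch: quantitative statements: size of the charts. -/

set_option autoImplicit false
set_option linter.unusedSectionVars false
set_option linter.unusedVariables false

open MeasureTheory Set Filter Topology Metric
open scoped ContDiff RealInnerProductSpace ENNReal
open Crest.GeometryTopology.Submanifold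
open Crest.Agent.R241.DDefs Crest.Agent.R241.D2
open Crest.Agent.R208.J Crest.Agent.R208.L

noncomputable section

namespace Crest.Agent.N221.Cov

variable {n N m : ℕ} {a : ℝ} {S : Set (Euc N)} {G : Geo n N (-(a ^ 2)) S} (C : Cov G)
variable {f f' f'' : FF n N m} {z z' : ZZ m} {x y y' ξ η : Euc n} {v u u' : Euc N} {q q' : Euc m}
  {g : Euc n → Euc n} {s t : ℝ}
/-- compactness with a constant -/
lemma unifK {E : Type} [NormedAddCommGroup E] {p : ℝ → FF n N m → E → Prop}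
    (mono : ∀ K K' f e, K ≤ K' → p K f e → p K' f e)
    (hloc : ∀ f, C.Frm f → ∃ K, ∀ᶠ k : FF n N m × E in 𝓝 (f, 0), C.Frm k.1 → p K k.1 k.2) (D : ℝ) :
    ∃ K r : ℝ, 0 < K ∧ 0 < r ∧ ∀ f e, C.Frm f → ‖f.1‖ ≤ D → ‖e‖ ≤ r → p K f e := by
  obtain ⟨K, r, hr, h⟩ := (C.isCompact_frm (m := m) D).induction_on
    (p := fun s => ∃ K r : ℝ, 0 < r ∧ ∀ f ∈ s, ∀ e, ‖e‖ ≤ r → C.Frm f → p K f e)
    ⟨0, 1, one_pos, fun _ h => h.elim⟩
    (fun s t hst ⟨K, r, hr, h⟩ => ⟨K, r, hr, fun f hf => h f (hst hf)⟩)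
    (fun s t ⟨K, r, hr, h⟩ ⟨K', r', hr', h'⟩ => ⟨max K K', min r r', lt_min hr hr',
      fun f hf e he h1 => hf.elim
        (fun hf => mono _ _ _ _ (le_max_left _ _) (h f hf e (he.trans (min_le_left _ _)) h1))
        fun hf => mono _ _ _ _ (le_max_right _ _) (h' f hf e (he.trans (min_le_right _ _)) h1)⟩)
    fun f hf => by
      obtain ⟨K, hK⟩ := hloc f hf.1
      rw [nhds_prod_eq, eventually_prod_iff] at hK
      obtain ⟨pa, h1, pb, h2, h3⟩ := hK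
      obtain ⟨r, hr, h4⟩ := Metric.eventually_nhds_iff_ball.1 h2
      exact ⟨_, mem_nhdsWithin_of_mem_nhds h1, K, r / 2, half_pos hr, fun f' hf' e he =>
        h3 hf' (h4 e (mem_ball_zero_iff.2 (by linarith)))⟩
  exact ⟨max K 1, r, by positivity, hr, fun f e h1 h2 h3 =>
    mono _ _ _ _ (le_max_left _ _) (h f ⟨h1, h2⟩ e h3 h1)⟩

variable (H : Hyp n N a S) (hm : m + 1 = n)
include H hm

lemma uv_near : ∃ K > 0, ∀ (f : FF n N m) (z : ZZ m), C.Frm f → ‖z‖ ≤ 2 * C.rr m →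
    ‖C.uv f z - f.2.1‖ ≤ K * ‖z‖ := by
  obtain ⟨D, -, hD⟩ := C.exists_deck
  have hJ : JC (fun (p : FF n N m) x => C.uv p x)
      ({f : FF n N m | C.Frm f ∧ ‖f.1‖ ≤ D} ×ˢ closedBall 0 (2 * C.rr m)) :=
    JC.of_smooth (T := fun k : FF n N m × ZZ m => C.uv k.1 k.2) fun k hk =>
      C.contDiffAt_uv H hk.1.1 (C.Dm_of_le H hm hk.1.1 (mem_closedBall_zero_iff.1 hk.2))
  obtain ⟨B, hB⟩ := ((C.isCompact_frm (m := m) D).prod
    (isCompact_closedBall (0 : ZZ m) (2 * C.rr m))).exists_bound_of_continuousOn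
    hJ.continuousOn_fderiv
  refine ⟨max B 1, by positivity, fun f z hf hz => ?_⟩
  obtain ⟨g, hg, hgD⟩ := hD f.1
  have := (convex_closedBall (0 : ZZ m) (2 * C.rr m)).norm_image_sub_le_of_norm_fderiv_le (𝕜 := ℝ)
    (f := C.uv (fg g f)) (C := max B 1)
    (fun w hw => (hJ.sm (fg g f, w) ⟨⟨hf.fg C hg, hgD⟩, hw⟩).differentiableAt (by simp))
    (fun w hw => (hB (fg g f, w) ⟨⟨hf.fg C hg, hgD⟩, hw⟩).trans (le_max_left _ _))
    (mem_closedBall_self (by linarith [C.rr_pos H hm])) (mem_closedBall_zero_iff.2 hz)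
  rwa [C.uv_fg hf hg, C.uv_zero H hf, sub_zero] at this

/-- vectors near the centre cross the transversal near the centre (intermediate values for
`t ↦ ⟪lg x (gd y u t), v⟫`, whose derivative is `≥ 1/2`; `eq_hy`, `uv_eq`) -/
lemma near_chart : ∃ K δ : ℝ, 0 < K ∧ 0 < δ ∧ ∀ (f : FF n N m) (y : Euc n) (u : Euc N) (ε : ℝ),
    C.Frm f → C.Un y u → ε ≤ δ → C.dd f.1 y ≤ ε → ‖u - f.2.1‖ ≤ ε →
    ∃ (z : ZZ m) (t : ℝ), ‖z‖ ≤ K * ε ∧ |t| ≤ K * ε ∧ C.hy f z.1 = C.gd y u t ∧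
      C.uv f z = C.vel y u t := by
  obtain ⟨D, -, hD⟩ := C.exists_deck
  obtain ⟨K, r, hK, hr, h⟩ := C.unifK (E := Euc n × Euc N) (p := fun K (f : FF n N m) e =>
      C.Un (f.1 + e.1) (f.2.1 + e.2) → ∃ (z : ZZ m) (t : ℝ), ‖z‖ ≤ K * ‖e‖ ∧ |t| ≤ K * ‖e‖ ∧
        C.hy f z.1 = C.gd (f.1 + e.1) (f.2.1 + e.2) t ∧ C.uv f z = C.vel (f.1 + e.1) (f.2.1 + e.2) t)
    (fun K K' f e hK h hu => by
      obtain ⟨z, t, h1, h2, h3⟩ := h hu
      have := mul_le_mul_of_nonneg_right hK (norm_nonneg e)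
      exact ⟨z, t, h1.trans this, h2.trans this, h3⟩)
    (fun f hf => by
      have h0 : ‖(0 : ZZ m)‖ < 2 * C.rr m := by simpa using C.rr_pos H hm
      obtain ⟨τ, Z, t1, z1, t2, z2, hev⟩ := C.loc_cross H hm (t := 0) (z := 0) hf
        (C.Dm_of_le H hm hf h0.le) hf.un (by rw [C.gd_zero]; exact C.hy_zero f)
        (by rw [C.vel_zero, C.uv_zero H hf])
      obtain ⟨K, O, hO, hL⟩ := ((z1.prodMk t1).of_le (m := 1) (by simp)).exists_lipschitzOnWith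
      have c1 : Tendsto (fun k : FF n N m × Euc n × Euc N => (k.1, k.1.1 + k.2.1, k.1.2.1 + k.2.2))
          (𝓝 (f, 0)) (𝓝 (f, f.1, f.2.1)) := Continuous.tendsto' (by fun_prop) _ _ (by simp)
      have c2 : Tendsto (fun k : FF n N m × Euc n × Euc N => (k.1, k.1.1, k.1.2.1))
          (𝓝 (f, 0)) (𝓝 (f, f.1, f.2.1)) := Continuous.tendsto' (by fun_prop) _ _ rfl
      refine ⟨K, ?_⟩
      filter_upwards [c1.eventually hO, c2.eventually hO, c1.eventually hev, c2.eventually hev,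
        c2.eventually (z1.continuousAt.norm.eventually (gt_mem_nhds (a := 2 * C.rr m)
          (by simpa only [z2] using h0)))] with k k1 k2 k3 k4 k5 hk hu
      obtain ⟨g1, g2⟩ := C.ge_of_gd H hk.un (k4 hk hk.un).1 (k4 hk hk.un).2
      have g3 : Z (k.1, k.1.1, k.1.2.1) = 0 := (C.rad H hm).inj _ hk
        (mem_closedBall_zero_iff.2 k5.le) (mem_closedBall_zero_iff.2 h0.le)
        (g1.trans (C.ge_zero H hk).symm)
      have g4 : τ (k.1, k.1.1, k.1.2.1) = 0 := by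
        rw [← g2, g3, Prod.fst_zero, C.hy_zero, sub_self]
      have g5 := hL.norm_sub_le k1 k2
      simp only [g3, g4, Prod.mk_sub_mk, sub_zero, sub_self, add_sub_cancel_left, Prod.norm_mk,
        norm_zero, max_le_iff] at g5
      rw [max_eq_right (by positivity), ← Prod.norm_def] at g5
      exact ⟨_, _, g5.1, g5.2, k3 hk hu⟩) D
  refine ⟨K, r, hK, hr, fun f y u ε hf hu hε h1 h2 => ?_⟩
  obtain ⟨g, hg, hgD⟩ := hD f.1
  have he : ‖(g y - g f.1, u - f.2.1)‖ ≤ ε := max_le ((C.norm_sub_le_dd H.a_pos.le _ _).trans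
    (by rwa [hg.dd_eq C, C.dd_comm])) h2
  have e1 : (fg g f).1 + (g y - g f.1) = g y := add_sub_cancel _ _
  have e2 : (fg g f).2.1 + (u - f.2.1) = u := add_sub_cancel _ _
  have := h (fg g f) _ (hf.fg C hg) hgD (he.trans hε)
  simp only [e1, e2] at this
  obtain ⟨z, t, k1, k2, k3, k4⟩ := this ((Deck.un C hg).2 hu)
  have := mul_le_mul_of_nonneg_left he hK.le
  rw [C.hy_fg hf hg, hg.gd_eq C hu.mem] at k3
  rw [C.uv_fg hf hg, hg.vel_eq C] at k4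
  exact ⟨z, t, k1.trans this, k2.trans this, hg.bij.1 k3, k4⟩

/-- the same from the closeness of two positions to a vector near the centre -/
lemma near2 : ∃ K δ : ℝ, 0 < K ∧ 0 < δ ∧ ∀ (f : FF n N m) (y y' : Euc n) (u u' : Euc N)
    (ρ ε e : ℝ), (e = 1 ∨ e = -1) → C.Frm f → C.Un y u → C.Un y' u' → ρ ≤ δ → ε ≤ δ →
    C.dd y y' ≤ ρ → C.dd (C.gd y u e) (C.gd y' u' e) ≤ ρ → C.dd f.1 y ≤ ε → ‖u - f.2.1‖ ≤ ε →
    ∃ (z : ZZ m) (t : ℝ), ‖z‖ ≤ K * (ρ + ε) ∧ |t| ≤ K * (ρ + ε) ∧ C.hy f z.1 = C.gd y' u' t ∧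
      C.uv f z = C.vel y' u' t := by
  obtain ⟨K, δ, hK, hδ, h⟩ := C.near_chart H hm
  obtain ⟨L, hL, hl⟩ := C.up_close H
  refine ⟨K * (2 * L + 1), δ / (2 * (2 * L + 1)), by positivity, by positivity,
    fun f y y' u u' ρ ε e he hf hu hu' h1 h2 h3 h4 h5 h6 => ?_⟩
  have p1 := (C.dd_nonneg _ _).trans h3
  have p2 := (C.dd_nonneg _ _).trans h5
  have k1 := (norm_snd_le ((C.pr y, u) - (C.pr y', u'))).trans
    ((dist_eq_norm _ _).symm.trans_le (hl y u y' u' hu hu' e he))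
  have k2 : ‖u' - f.2.1‖ ≤ ‖u - u'‖ + ‖u - f.2.1‖ := by
    rw [norm_sub_rev u u']; exact norm_sub_le_norm_sub_add_norm_sub _ _ _
  have k3 := C.dd_triangle H.a_pos.le f.1 y y'
  have k4 : ‖u - u'‖ ≤ L * (ρ + ρ) := k1.trans (by gcongr)
  rw [le_div_iff₀ (by positivity)] at h1 h2
  simpa only [mul_assoc] using h f y' u' ((2 * L + 1) * (ρ + ε)) hf hu' (by nlinarith)
    (by nlinarith) (by nlinarith)

/-- bounded times, nearby frames -/
lemma step (R : ℝ) : ∃ K δ : ℝ, 0 < K ∧ 0 < δ ∧ ∀ (f f' : FF n N m) (z : ZZ m) (t ε : ℝ),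
    C.Frm f → C.Frm f' → |t| ≤ R → ε ≤ δ → ‖z‖ ≤ ε → C.dd f'.1 (C.gd f.1 f.2.1 t) ≤ ε →
    ‖C.vel f.1 f.2.1 t - f'.2.1‖ ≤ ε →
    z ∈ C.dm f f' ∧ ‖C.Tf f f' z‖ ≤ K * ε ∧ |C.tm f f' z - t| ≤ K * ε := by
  obtain ⟨K, δ, hK, hδ, h⟩ := C.near2 H hm
  obtain ⟨K1, p1, h1⟩ := C.uv_near H hm
  obtain ⟨K2, p2, h2⟩ := C.gd_close H (|R| + 1)
  have hr := C.rr_pos H hm
  set A := K2 * (1 + K1) + 1 with hA
  have pA : 1 ≤ A := by rw [hA]; linarith [mul_pos p2 (add_pos one_pos p1)]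
  refine ⟨K * A, min (min 1 (δ / A)) (C.rr m / (2 * (K * A + 1))), by positivity, by positivity,
    fun f f' z t ε hf hf' ht hε hz k1 k2 => ?_⟩
  simp only [le_min_iff] at hε
  obtain ⟨⟨e1, e2⟩, e3⟩ := hε
  rw [le_div_iff₀ (by positivity)] at e2 e3
  have e0 := (norm_nonneg _).trans hz
  have e4 : 0 ≤ K * A * ε := by positivity
  have hz' : ‖z‖ < C.rr m := by nlinarith
  have hu := C.un_uv H hf (C.Dm_lt H hm hf hz')
  have hq : C.dd f.1 (C.hy f z.1) ≤ ε := by rw [C.dd_hy hf]; exact (norm_fst_le z).trans hz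
  have cl : ∀ s, |s| ≤ |R| + 1 →
      C.dd (C.gd f.1 f.2.1 s) (C.gd (C.hy f z.1) (C.uv f z) s) ≤ K2 * (1 + K1) * ε := fun s hs => by
    refine (h2 _ _ _ _ hf.un hu (by linarith [abs_nonneg R]) s hs).trans ?_
    rw [norm_sub_rev, mul_assoc]
    have := (h1 f z hf (by linarith)).trans (mul_le_mul_of_nonneg_left hz p1.le)
    exact mul_le_mul_of_nonneg_left (by linarith) p2.le
  have hR := ht.trans (le_abs_self R)
  obtain ⟨w, s, w1, w2, w3, w4⟩ := h f' _ _ _ _ (K2 * (1 + K1) * ε) ε 1 (.inl rfl) hf' (hf.un.vel C t)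
    (hu.vel C t) (by nlinarith) (by nlinarith) (cl t (by linarith))
    (by rw [C.gd_add hf.un.mem, C.gd_add hu.mem]
        exact cl _ ((abs_add_le _ _).trans (by rw [abs_one]; linarith))) k1 k2
  rw [show K * (K2 * (1 + K1) * ε + ε) = K * A * ε by rw [hA]; ring] at w1 w2
  obtain ⟨g1, g2, g3⟩ := C.Tf_of_gd H hm hf hf' hz' (z' := w) (by nlinarith)
    (w3.trans (C.gd_add hu.mem t s)) (w4.trans (C.vel_add hu.mem t s))
  exact ⟨g1, g2 ▸ w1, by rwa [g3, add_sub_cancel_left]⟩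

/-- the plaque of the centre leaf (`asy_tail`, `abs_bus_sub_le`, `up_close`, `near_chart`; `step`
for `t ≤ 1`), with a perturbed start `(y, u)` and a perturbed end frame -/
lemma tail_chart : ∃ K δ : ℝ, 0 < K ∧ 0 < δ ∧ ∀ (f' : FF n N m) (y y' : Euc n) (u : Euc N)
    (t ε ε' : ℝ), C.Frm f' → C.Un y u → 1 ≤ t → ε ≤ δ → ε' ≤ δ → C.dd y y' ≤ ε →
    C.dd f'.1 (C.gd y u t) ≤ ε' → ‖C.vel y u t - f'.2.1‖ ≤ ε' →
    ∃ (z : ZZ m) (s : ℝ), ‖z‖ ≤ K * (ε * Real.exp (-(a * t)) + ε') ∧ |s - t| ≤ K * (ε + ε') ∧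
      C.hy f' z.1 = C.gd y' (C.asy y u y') s ∧ C.uv f' z = C.vel y' (C.asy y u y') s := by
  obtain ⟨K, δ, hK, hδ, h⟩ := C.near2 H hm
  have ha := H.a_pos
  set A := 2 * Real.exp a * Real.exp a + 1 with hA
  have pA : 1 ≤ A := by rw [hA]; linarith [mul_pos (mul_pos two_pos (Real.exp_pos a)) (Real.exp_pos a)]
  refine ⟨K * A + 1, min 1 (δ / A), by positivity, by positivity,
    fun f' y y' u t ε ε' hf hu ht hε hε' k1 k2 k3 => ?_⟩
  simp only [le_min_iff] at hε hε'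
  obtain ⟨e1, e2⟩ := hε
  obtain ⟨e3, e4⟩ := hε'
  rw [le_div_iff₀ (by positivity)] at e2 e4
  have e0 := (C.dd_nonneg _ _).trans k1
  have e0' := (C.dd_nonneg _ _).trans k2
  have hw := C.un_asy ha hu y'
  have hβ : |C.bus y u y'| ≤ ε := by
    have := C.abs_bus_sub_le ha hu y' (C.gd y u 0)
    rw [C.bus_gd ha hu, C.gd_zero, neg_zero, sub_zero, C.dd_comm] at this
    exact this.trans k1
  have x1 : Real.exp (-(a * t)) ≤ 1 := Real.exp_le_one_iff.2 (by nlinarith)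
  have x0 := Real.exp_pos (-(a * t))
  have cl : ∀ s, t ≤ s → C.dd (C.gd y u s) (C.gd y' (C.asy y u y') (s + C.bus y u y')) ≤
      A * (ε * Real.exp (-(a * t))) := fun s hs => by
    have b1 := abs_le.1 hβ
    have := C.asy_tail ha hu y' (s := s + C.bus y u y') (by linarith)
    rw [add_sub_cancel_right, C.dd_comm] at this
    refine this.trans ?_
    have b2 : Real.exp (-(a * (s + C.bus y u y'))) ≤ Real.exp a * Real.exp (-(a * t)) := by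
      rw [← Real.exp_add]; exact Real.exp_le_exp.2 (by nlinarith)
    have b3 : Real.sinh (a * C.dd y y') ≤ a * Real.exp a * ε :=
      (Tw.sinh_le ha (C.dd_nonneg _ _) (k1.trans e1)).trans (by gcongr)
    calc _ ≤ 2 / a * (Real.exp a * Real.exp (-(a * t))) * (a * Real.exp a * ε) := by
          gcongr; exact Real.sinh_nonneg_iff.2 (mul_nonneg ha.le (C.dd_nonneg _ _))
      _ = 2 * Real.exp a * Real.exp a * (ε * Real.exp (-(a * t))) := by field_simp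
      _ ≤ _ := by gcongr; linarith
  have x2 : ε * Real.exp (-(a * t)) ≤ ε := mul_le_of_le_one_right e0 x1
  have x3 : 0 ≤ ε * Real.exp (-(a * t)) := by positivity
  obtain ⟨w, s, w1, w2, w3, w4⟩ := h f' _ _ _ _ (A * (ε * Real.exp (-(a * t)))) ε' 1 (.inl rfl) hf
    (hu.vel C t) (hw.vel C (t + C.bus y u y')) (by nlinarith) (by nlinarith) (cl t le_rfl)
    (by rw [C.gd_add hu.mem, C.gd_add hw.mem, add_right_comm]; exact cl _ (by linarith)) k2 k3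
  have x4 : K * (A * (ε * Real.exp (-(a * t))) + ε') ≤ K * A * (ε * Real.exp (-(a * t)) + ε') := by
    rw [mul_assoc]; exact mul_le_mul_of_nonneg_left (by nlinarith) hK.le
  refine ⟨w, t + C.bus y u y' + s, w1.trans (x4.trans (by nlinarith)), ?_,
    w3.trans (C.gd_add hw.mem _ s), w4.trans (C.vel_add hw.mem _ s)⟩
  rw [add_assoc, add_sub_cancel_left]
  have x5 : K * A * (ε * Real.exp (-(a * t)) + ε') ≤ K * A * (ε + ε') := by gcongr
  exact (abs_add_le _ _).trans (by nlinarith)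


end Crest.Agent.N221.Cov
end
end

-- ▼ part N221/Ch/Prd

/-! Row 221, block Ch: quantitative statements: product boxes, hyperbolic boxes along orbits. -/

set_option autoImplicit false
set_option linter.unusedSectionVars false
set_option linter.unusedVariables false

open MeasureTheory Set Filter Topology Metric
open scoped ContDiff RealInnerProductSpace ENNReal
open Crest.GeometryTopology.Submanifold
open Crest.Agent.R241.DDefs Crest.Agent.R241.D2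
open Crest.Agent.R208.J Crest.Agent.R208.L

noncomputable section

namespace Crest.Agent.N221.Cov

variable {n N m : ℕ} {a : ℝ} {S : Set (Euc N)} {G : Geo n N (-(a ^ 2)) S} (C : Cov G)
variable {f f' f'' : FF n N m} {z z' : ZZ m} {x y y' ξ η : Euc n} {v u u' : Euc N} {q q' : Euc m}
  {g : Euc n → Euc n} {s t : ℝ}
variable (H : Hyp n N a S) (hm : m + 1 = n)
include H hm

lemma pq_mono (hf : C.Frm f) (hξ : C.Fw f ξ) (hq : ‖q‖ ≤ 2 * C.rr m) (hq' : ‖q'‖ ≤ 2 * C.rr m) :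
    ⟪C.pq f ξ q - C.pq f ξ q', q - q'⟫ ≤ -(a / 32 * ‖q - q'‖ ^ 2) := by
  have h0 := bas_ne0 hξ.1
  have hd : ∀ τ : ℝ, HasDerivAt (fun τ : ℝ => ⟪C.pq f ξ (q' + τ • (q - q')), q - q'⟫)
      ⟪C.HH f ξ (q' + τ • (q - q')) (q - q'), q - q'⟫ τ := fun τ => by
    have h1 : HasDerivAt (fun τ : ℝ => q' + τ • (q - q')) (q - q') τ := by
      simpa using ((hasDerivAt_id τ).smul_const (q - q')).const_add q'
    simpa using ((C.hasFDerivAt_pq H h0 f _).comp_hasDerivAt τ h1).inner ℝ (hasDerivAt_const τ (q - q'))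
  obtain ⟨τ, hτ, e⟩ := exists_hasDerivAt_eq_slope _ _ zero_lt_one
    (fun τ _ => (hd τ).continuousAt.continuousWithinAt) fun τ _ => hd τ
  have hb : q' + τ • (q - q') ∈ closedBall (0 : Euc m) (2 * C.rr m) :=
    (convex_closedBall _ _).add_smul_sub_mem (mem_closedBall_zero_iff.2 hq')
      (mem_closedBall_zero_iff.2 hq) ⟨hτ.1.le, hτ.2.le⟩
  have h2 := (C.rad H hm).neg f hf ξ hξ _ (mem_closedBall_zero_iff.1 hb) (q - q')
  rw [e] at h2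
  simpa [inner_sub_left] using h2

lemma pq_lip : ∃ K > 0, ∀ (f : FF n N m) (ξ : Euc n) (q q' : Euc m), C.Frm f → ‖ξ‖ = 1 →
    ‖q‖ ≤ 1 → ‖q'‖ ≤ 1 → ‖C.HH f ξ q‖ ≤ K ∧ ‖C.pq f ξ q - C.pq f ξ q'‖ ≤ K * ‖q - q'‖ := by
  obtain ⟨B, hB⟩ := C.jb_HH (m := m) H 1 0
  have h1 : ∀ (f : FF n N m) ξ q, C.Frm f → ‖ξ‖ = 1 → ‖q‖ ≤ 1 → ‖C.HH f ξ q‖ ≤ |B| + 1 :=
    fun f ξ q hf hξ hq => by
      have := hB ((f, ξ), q) ⟨hf, hξ, hq⟩
      rw [norm_iteratedFDeriv_zero] at this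
      linarith [le_abs_self B]
  refine ⟨|B| + 1, by positivity, fun f ξ q q' hf hξ hq hq' => ⟨h1 f ξ q hf hξ hq, ?_⟩⟩
  exact (convex_closedBall (0 : Euc m) 1).norm_image_sub_le_of_norm_hasFDerivWithin_le
    (fun x _ => (C.hasFDerivAt_pq H (bas_ne0 hξ) f x).hasFDerivWithinAt)
    (fun x hx => h1 f ξ x hf hξ (mem_closedBall_zero_iff.1 hx)) (mem_closedBall_zero_iff.2 hq')
    (mem_closedBall_zero_iff.2 hq)

lemma Su_Ss (hf : C.Frm f) (hz : ‖z‖ ≤ 2 * C.rr m) (e : Euc m) :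
    ⟪C.Ss f z e, e⟫ ≤ -(a / 32 * ‖e‖ ^ 2) ∧ a / 32 * ‖e‖ ^ 2 ≤ ⟪C.Su f z e, e⟫ := by
  have h1 := (norm_fst_le z).trans hz
  refine ⟨(C.rad H hm).neg f hf _ ((C.rad H hm).front f hf z hz) _ h1 e, ?_⟩
  have h2 := (C.rad H hm).neg (fp f) hf.fp _ (C.back H hm hf hz) _ h1 e
  rw [Su, neg_apply, inner_neg_left]
  exact le_neg.1 h2

lemma pq_mono2 (hf : C.Frm f) (hξ : C.Fw f ξ) (hη : C.Fw (fp f) η) (hq : ‖q‖ ≤ 2 * C.rr m)
    (hq' : ‖q'‖ ≤ 2 * C.rr m) : ⟪C.pq f ξ q + C.pq f η q - (C.pq f ξ q' + C.pq f η q'), q - q'⟫ ≤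
      -(a / 16 * ‖q - q'‖ ^ 2) := by
  have h1 := C.pq_mono H hm hf hξ hq hq'
  have h2 := C.pq_mono H hm hf.fp hη hq hq'
  rw [C.pq_fp] at h2
  rw [add_sub_add_comm, inner_add_left]
  linarith

lemma pq_ge (hf : C.Frm f) (hz : ‖z‖ ≤ 2 * C.rr m) :
    C.pq f (C.ge f z).1 z.1 = z.2 ∧ C.pq f (C.ge f z).2 z.1 = -z.2 :=
  ⟨congrArg Prod.snd (C.eq_gs H hf (C.Dm_of_le H hm hf hz)),
    neg_eq_iff_eq_neg.1 (congrArg Prod.snd (C.eq_gu H hf (C.Dm_of_le H hm hf hz)))⟩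

lemma gs_le : ∃ K, 1 ≤ K ∧ ∀ (f : FF n N m) (ξ : Euc n) (q : Euc m), C.Frm f → ‖ξ‖ = 1 → ‖q‖ ≤ 1 →
    ‖C.gs f ξ q‖ ≤ ‖C.pq f ξ 0‖ + K * ‖q‖ ∧ ‖C.pq f ξ 0‖ ≤ K * ‖C.gs f ξ q‖ := by
  obtain ⟨K, K0, hK⟩ := C.pq_lip H hm
  refine ⟨K + 1, by linarith, fun f ξ q hf hξ hq => ?_⟩
  have h1 := (hK f ξ q 0 hf hξ hq (by simp)).2
  rw [sub_zero] at h1
  have h2 := abs_le.1 ((abs_norm_sub_norm_le _ _).trans h1)
  have h3 : ‖q‖ ≤ ‖C.gs f ξ q‖ := norm_fst_le (C.gs f ξ q)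
  have h4 : ‖C.pq f ξ q‖ ≤ ‖C.gs f ξ q‖ := norm_snd_le (C.gs f ξ q)
  have h5 := mul_le_mul_of_nonneg_left h3 K0.le
  refine ⟨max_le ?_ ?_, by linarith [h2.1]⟩
  · change ‖q‖ ≤ _
    nlinarith [norm_nonneg q, norm_nonneg (C.pq f ξ 0)]
  · change ‖C.pq f ξ q‖ ≤ _
    linarith [h2.2, norm_nonneg q]

lemma pq_le : ∃ K, 1 ≤ K ∧ ∀ (f : FF n N m) (z : ZZ m), C.Frm f → ‖z‖ ≤ 2 * C.rr m →
    ‖C.pq f (C.ge f z).1 0‖ ≤ K * ‖z‖ ∧ ‖C.pq f (C.ge f z).2 0‖ ≤ K * ‖z‖ := by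
  obtain ⟨K, K1, hK⟩ := C.gs_le H hm
  refine ⟨K, K1, fun f z hf hz => ?_⟩
  have h1 : ‖z.1‖ ≤ 1 := by linarith [norm_fst_le z, (C.rad H hm).le]
  have h2 := (hK f _ _ hf ((C.rad H hm).front f hf z hz).1 h1).2
  have h3 := (hK f _ _ hf (C.back H hm hf hz).1 h1).2
  rw [C.eq_gs H hf (C.Dm_of_le H hm hf hz)] at h2
  rw [gs, (C.pq_ge H hm hf hz).2] at h3
  exact ⟨h2, h3.trans_eq (congrArg _ (norm_flp z))⟩


/-- PRODUCT BOXES (`exists_zero_mono` for `pq ξ + pq η`) -/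
lemma prod_box : ∃ K δ : ℝ, 0 < K ∧ 0 < δ ∧ ∀ (f : FF n N m) (ξ η : Euc n) (ε : ℝ), C.Frm f →
    C.Fw f ξ → C.Fw (fp f) η → ε ≤ δ → ‖C.pq f ξ 0‖ ≤ ε → ‖C.pq f η 0‖ ≤ ε →
    ∃ z : ZZ m, ‖z‖ ≤ K * ε ∧ C.ge f z = (ξ, η) := by
  obtain ⟨K, K1, hK⟩ := C.gs_le H hm
  have ha := H.a_pos
  have r0 := C.rr_pos H hm
  refine ⟨1 + K * (32 / a), a * C.rr m / 64, by positivity, by positivity,
    fun f ξ η ε hf hξ hη hε h1 h2 => ?_⟩
  have h3 := norm_add_le_of_le h1 h2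
  obtain ⟨q, q1, q2⟩ := exists_zero_mono (F := fun q => C.pq f ξ q + C.pq f η q) (r := 2 * C.rr m)
    (c := a / 16) (φ := fun q => C.bq f ξ q + C.bq f η q) (by positivity) (by positivity)
    (fun q => by
      rw [map_add]
      exact (C.hasFDerivAt_bq H (bas_ne0 hξ.1) f q).add (C.hasFDerivAt_bq H (bas_ne0 hη.1) f q))
    (fun q hq => by simpa using C.pq_mono2 H hm hf hξ hη hq (q' := 0) (by simpa using r0.le))
    (by linarith)
  have q3 : ‖q‖ ≤ 32 / a * ε := by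
    rw [div_mul_eq_mul_div, le_div_iff₀ ha]
    linarith
  have q4 : ‖q‖ ≤ C.rr m / 2 := le_of_mul_le_mul_left (by linarith) ha
  have e : C.gs f ξ q = C.gu f η q := Prod.ext rfl (eq_neg_of_add_eq_zero_left q2)
  refine ⟨C.gs f ξ q, (hK f ξ q hf hξ.1 (by linarith [(C.rad H hm).le])).1.trans ?_,
    Prod.ext (C.ge_gs H hm hf hξ (by linarith)).2.2 (e ▸ (C.ge_gu H hm hf hη (by linarith)).2.2)⟩
  nlinarith [mul_le_mul_of_nonneg_left q3 (zero_le_one.trans K1)]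

lemma prod_box' : ∃ K δ : ℝ, 0 < K ∧ 0 < δ ∧ ∀ (f : FF n N m) (z z' : ZZ m) (ε : ℝ), C.Frm f →
    ε ≤ δ → ‖z‖ ≤ ε → ‖z'‖ ≤ ε →
    ∃ w : ZZ m, ‖w‖ ≤ K * ε ∧ C.ge f w = ((C.ge f z).1, (C.ge f z').2) := by
  obtain ⟨K, δ, K0, d0, hK⟩ := C.prod_box H hm
  obtain ⟨L, L1, hL⟩ := C.pq_le H hm
  have r0 := C.rr_pos H hm
  refine ⟨K * L, min (C.rr m) (δ / L), by positivity, by positivity, fun f z z' ε hf hε hz hz' => ?_⟩
  have e1 := hε.trans (min_le_left _ _)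
  have e2 := (le_div_iff₀' (by positivity)).1 (hε.trans (min_le_right _ _))
  have h1 : ‖z‖ ≤ 2 * C.rr m := by linarith
  have h2 : ‖z'‖ ≤ 2 * C.rr m := by linarith
  rw [mul_assoc]
  exact hK f _ _ _ hf ((C.rad H hm).front f hf z h1) (C.back H hm hf h2) e2
    ((hL f z hf h1).1.trans (by gcongr)) ((hL f z' hf h2).2.trans (by gcongr))

/-- `step` for frames on one orbit -/
lemma step' (R : ℝ) : ∃ K δ : ℝ, 0 < K ∧ 0 < δ ∧ ∀ (f f' : FF n N m) (z : ZZ m) (t ε : ℝ),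
    C.Frm f → C.Frm f' → C.Ov f f' t → |t| ≤ R → ε ≤ δ → ‖z‖ ≤ ε →
    z ∈ C.dm f f' ∧ ‖C.Tf f f' z‖ ≤ K * ε ∧ |C.tm f f' z - t| ≤ K * ε := by
  obtain ⟨K, δ, K0, d0, hK⟩ := C.step H hm R
  refine ⟨K, δ, K0, d0, fun f f' z t ε hf hf' ho ht hε hz => ?_⟩
  have e0 := (norm_nonneg z).trans hz
  exact hK f f' z t ε hf hf' ht hε hz (by rw [← ho.1, C.dd_self]; exact e0)
    (by rw [← ho.2, sub_self, norm_zero]; exact e0)

/-- the centre stable leaf is contracted -/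
lemma ctrP_s : ∃ K δ : ℝ, 0 < K ∧ 0 < δ ∧ ∀ (f f' : FF n N m) (z : ZZ m) (t ε : ℝ), C.Frm f →
    C.Frm f' → C.Ov f f' t → 0 ≤ t → ε ≤ δ → ‖z‖ ≤ ε → (C.ge f z).1 = (C.ge f 0).1 →
    z ∈ C.dm f f' ∧ ‖C.Tf f f' z‖ ≤ K * ε * Real.exp (-(a * t)) ∧ |C.tm f f' z - t| ≤ K * ε := by
  obtain ⟨K, δ, K0, d0, hK⟩ := C.step' H hm 1
  obtain ⟨L, δ', L0, d1, hL⟩ := C.tail_chart H hm
  have ha := H.a_pos
  have r0 := C.rr_pos H hm
  refine ⟨K * Real.exp a + L, min δ (min δ' (C.rr m / (2 * (L + 1)))), by positivity, by positivity,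
    fun f f' z t ε hf hf' ho ht hε hz e => ?_⟩
  have e0 := (norm_nonneg z).trans hz
  have x0 := Real.exp_pos (-(a * t))
  have x1 : Real.exp (-(a * t)) ≤ 1 := Real.exp_le_one_iff.2 (neg_nonpos.2 (by positivity))
  have x2 : 1 ≤ Real.exp a := Real.one_le_exp ha.le
  have k0 : 0 ≤ K * ε := by positivity
  have l0 : 0 ≤ L * ε := by positivity
  rcases le_total t 1 with h | h
  · obtain ⟨h1, h2, h3⟩ := hK f f' z t ε hf hf' ho (by rwa [abs_of_nonneg ht])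
      (hε.trans (min_le_left _ _)) hz
    have x3 : 1 ≤ Real.exp a * Real.exp (-(a * t)) := by
      rw [← Real.exp_add]
      exact Real.one_le_exp (by nlinarith)
    refine ⟨h1, h2.trans ?_, h3.trans ?_⟩
    · nlinarith [mul_le_mul_of_nonneg_left x3 k0, mul_nonneg l0 x0.le]
    · nlinarith [mul_le_mul_of_nonneg_left x2 k0]
  · have e1 := hε.trans ((min_le_right _ _).trans (min_le_left _ _))
    have e2 := (le_div_iff₀ (by positivity)).1 (hε.trans ((min_le_right _ _).trans (min_le_right _ _)))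
    obtain ⟨w, s, w1, w2, w3, w4⟩ := hL f' f.1 (C.hy f z.1) f.2.1 t ε 0 hf' hf.un h e1 d1.le
      (by rw [C.dd_hy hf]; exact (norm_fst_le z).trans hz) (by rw [← ho.1, C.dd_self])
      (by rw [← ho.2, sub_self, norm_zero])
    rw [add_zero] at w1 w2
    rw [← C.W_ep ha hf.un, ← show (C.ge f 0).1 = C.ep f.1 f.2.1 by rw [C.ge_zero H hf], ← e,
      C.W_ge H hf (C.Dm_of_le H hm hf (by linarith))] at w3 w4
    have y1 : L * (ε * Real.exp (-(a * t))) ≤ L * ε := by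
      rw [← mul_assoc]
      exact mul_le_of_le_one_right l0 x1
    obtain ⟨h1, h2, h3⟩ := C.Tf_of_gd H hm hf hf' (by linarith) (by linarith) w3 w4
    have k1 : 0 ≤ K * Real.exp a * ε := by positivity
    rw [h2, h3]
    exact ⟨h1, w1.trans (by nlinarith [mul_nonneg k1 x0.le]), w2.trans (by linarith)⟩

/-- the centre unstable leaf is contracted backwards -/
lemma ctrP_u : ∃ K δ : ℝ, 0 < K ∧ 0 < δ ∧ ∀ (f f' : FF n N m) (w : ZZ m) (t ε : ℝ), C.Frm f →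
    C.Frm f' → C.Ov f f' t → 0 ≤ t → ε ≤ δ → ‖w‖ ≤ ε → (C.ge f' w).2 = (C.ge f' 0).2 →
    ∃ z ∈ C.dm f f', C.Tf f f' z = w ∧ ‖z‖ ≤ K * ε * Real.exp (-(a * t)) ∧
      |C.tm f f' z - t| ≤ K * ε := by
  obtain ⟨K, δ, K0, d0, hK⟩ := C.ctrP_s H hm
  refine ⟨K, δ, K0, d0, fun f f' w t ε hf hf' ho ht hε hw e => ?_⟩
  have o := Ov.fp C hf' (Ov.symm C hf ho)
  rw [neg_neg] at o
  have z0 : flp (0 : ZZ m) = 0 := by simp [flp]
  obtain ⟨h1, h2, h3⟩ := hK (fp f') (fp f) (flp w) t ε hf'.fp hf.fp o ht hε (by rwa [norm_flp])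
    (by rw [← z0, C.ge_fp, C.ge_fp]; exact e)
  have h4 := C.dm_fp.1 h1
  obtain ⟨h5, h6⟩ := C.Tf_fp H hm hf' hf h4
  obtain ⟨h7, h8, h9⟩ := C.Tf_symm H hm hf' hf h4
  rw [h5, norm_flp] at h2
  exact ⟨_, h7, h8, h2, by rwa [h9, ← h6]⟩

/-- HYPERBOLIC BOXES: if the leaf of `ξ` passes near the centre of the LATER frame `f'`, its
plaque in `f` is mapped into the chart `f'`.  (`prod_box` in `f'` with `η = ep x (-v)`;
`tail_chart` backwards (frames `fp f'`, `fp f`) puts `(ξ, η)` in the chart `f` at distance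
`K ε e^{-a t}`, `tail_chart` forwards for `y' = hy q` and the geodesic `(ξ, η)`; `step` for
`t ≤ 2`.) -/
lemma box_s : ∃ K δ : ℝ, 0 < K ∧ 0 < δ ∧ ∀ (f f' : FF n N m) (ξ : Euc n) (t ε : ℝ), C.Frm f →
    C.Frm f' → C.Ov f f' t → 0 ≤ t → C.Fw f' ξ → ε ≤ δ → ‖C.pq f' ξ 0‖ ≤ ε →
    C.Fw f ξ ∧ ‖C.pq f ξ 0‖ ≤ K * ε * Real.exp (-(a * t)) ∧ ∀ q, ‖q‖ ≤ ε →
      C.gs f ξ q ∈ C.dm f f' ∧ ‖C.Tf f f' (C.gs f ξ q)‖ ≤ K * ε ∧
      |C.tm f f' (C.gs f ξ q) - t| ≤ K * ε := by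
  obtain ⟨K1, δ1, k1, d1, h1⟩ := C.prod_box H hm
  obtain ⟨K2, δ2, k2, d2, h2⟩ := C.ctrP_u H hm
  obtain ⟨K3, k3, h3⟩ := C.pq_le H hm
  obtain ⟨K4, k4, h4⟩ := C.gs_le H hm
  obtain ⟨K5, δ5, k5, d5, h5⟩ := C.step' H hm 2
  obtain ⟨K6, δ6, k6, d6, h6⟩ := C.tail_chart H hm
  obtain ⟨K7, k7, h7⟩ := C.uv_near H hm
  have ha := H.a_pos
  have r0 := C.rr_pos H hm
  have r1 := (C.rad H hm).le
  obtain ⟨A, hA⟩ : ∃ A, A = 1 + K1 + K7 * K1 + K2 * K1 + K3 * (K2 * K1) + K4 := ⟨_, rfl⟩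
  have A0 : 0 < A := by rw [hA]; positivity
  obtain ⟨K, hK⟩ : ∃ K, K = A + K5 * A + K6 * (2 * A) := ⟨_, rfl⟩
  have K0 : 0 < K := by rw [hK]; positivity
  refine ⟨K, min δ1 (min δ2 (min δ5 (min δ6 (C.rr m / 2)))) / K, K0, by positivity,
    fun f f' ξ t ε hf hf' ho ht hξ hε hp => ?_⟩
  have e0 := (norm_nonneg _).trans hp
  have e1 := (le_div_iff₀' K0).1 hε
  simp only [le_min_iff] at e1
  obtain ⟨e1, e2, e5, e6, e7⟩ := e1
  have eA : A * ε = ε + K1 * ε + K7 * (K1 * ε) + K2 * (K1 * ε) + K3 * (K2 * (K1 * ε)) + K4 * ε := by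
    rw [hA]; ring
  have eK : K * ε = A * ε + K5 * (A * ε) + K6 * (A * ε + A * ε) := by rw [hK]; ring
  have p1 : 0 ≤ K1 * ε := by positivity
  have p2 : 0 ≤ K7 * (K1 * ε) := by positivity
  have p3 : 0 ≤ K2 * (K1 * ε) := by positivity
  have p4 : 0 ≤ K3 * (K2 * (K1 * ε)) := by positivity
  have p5 : 0 ≤ K4 * ε := by positivity
  have p6 : 0 ≤ K5 * (A * ε) := by positivity
  have p7 : 0 ≤ K6 * (A * ε + A * ε) := by positivity
  have x0 := Real.exp_pos (-(a * t))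
  have x1 : Real.exp (-(a * t)) ≤ 1 := Real.exp_le_one_iff.2 (neg_nonpos.2 (by positivity))
  have n0 : ‖(0 : ZZ m)‖ ≤ 2 * C.rr m := by simpa using r0.le
  obtain ⟨w, w1, w2⟩ := h1 f' ξ _ ε hf' hξ (C.back H hm hf' n0) (by linarith) hp
    (by simpa using (h3 f' 0 hf' n0).2.trans (by simpa using e0))
  obtain ⟨z, z1, z2, z3, z4⟩ := h2 f f' w t _ hf hf' ho ht (by linarith) w1 (by rw [w2])
  have z5 : ‖z‖ ≤ K2 * (K1 * ε) := z3.trans (mul_le_of_le_one_right p3 x1)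
  have z6 : ‖z‖ ≤ 2 * C.rr m := by linarith
  have z7 : (C.ge f z).1 = ξ := by rw [← (C.Tf_spec H hm hf' z1).2, z2, w2]
  have f1 : C.Fw f ξ := z7 ▸ (C.rad H hm).front f hf z z6
  have f2 : ‖C.pq f ξ 0‖ ≤ K3 * (K2 * (K1 * ε)) * Real.exp (-(a * t)) := by
    rw [mul_assoc, ← z7]
    exact (h3 f z hf z6).1.trans (by gcongr)
  refine ⟨f1, f2.trans (mul_le_mul_of_nonneg_right (by linarith) x0.le), fun q hq => ?_⟩
  have g1 : ‖C.gs f ξ q‖ ≤ A * ε := by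
    have := mul_le_mul_of_nonneg_left hq (zero_le_one.trans k4)
    linarith [(h4 f ξ q hf hξ.1 (by linarith)).1, mul_le_of_le_one_right p4 x1]
  rcases le_total t 2 with h | h
  · obtain ⟨u1, u2, u3⟩ := h5 f f' _ t _ hf hf' ho (by rwa [abs_of_nonneg ht]) (by linarith) g1
    exact ⟨u1, by linarith, by linarith⟩
  · have zD := C.Dm_of_le H hm hf z6
    obtain ⟨y1, y2⟩ := C.hy_Tf H hm hf hf' z1
    rw [z2] at y1 y2
    have z8 := abs_le.1 z4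
    have s1 : 1 ≤ C.tm f f' z := by linarith [z8.1]
    obtain ⟨w', s, v1, v2, v3, v4⟩ := h6 f' (C.hy f z.1) (C.hy f q) (C.uv f z) _ (A * ε) (A * ε) hf'
      (C.un_uv H hf zD) s1 (by linarith) (by linarith)
      (by
        have := C.dd_triangle ha.le (C.hy f z.1) f.1 (C.hy f q)
        rw [C.dd_comm _ f.1, C.dd_hy hf, C.dd_hy hf] at this
        linarith [norm_fst_le z])
      (by rw [← y1, C.dd_hy hf']; linarith [norm_fst_le w])
      (by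
        rw [← y2]
        linarith [h7 f' w hf' (by linarith), mul_le_mul_of_nonneg_left w1 k7.le])
    have b1 : ‖w'‖ ≤ K6 * (A * ε + A * ε) := by
      refine v1.trans (mul_le_mul_of_nonneg_left (add_le_add_left (mul_le_of_le_one_right (by positivity)
        (Real.exp_le_one_iff.2 (neg_nonpos.2 (by positivity)))) _) k6.le)
    rw [← C.W_ep ha (C.un_uv H hf zD), show C.ep _ _ = ξ from z7,
      ← (C.ge_gs H hm hf f1 (by linarith : ‖q‖ ≤ _)).2.1] at v3 v4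
    obtain ⟨u1, u2, u3⟩ := C.Tf_of_gd H hm (z := C.gs f ξ q) hf hf' (by linarith) (by linarith) v3 v4
    rw [u2, u3]
    have v5 := abs_le.1 v2
    exact ⟨u1, by linarith, abs_le.2 ⟨by linarith [v5.1, z8.1], by linarith [v5.2, z8.2]⟩⟩

/-- contraction on the plaque -/
lemma lf_lip : ∃ K δ : ℝ, 0 < K ∧ 0 < δ ∧ ∀ (f f' : FF n N m) (ξ : Euc n) (t : ℝ), C.Frm f →
    C.Frm f' → C.Ov f f' t → 0 ≤ t → C.Fw f' ξ → ‖C.pq f' ξ 0‖ ≤ δ → ∀ q q', ‖q‖ ≤ δ → ‖q'‖ ≤ δ →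
      ‖fderiv ℝ (C.lf f f' ξ) q‖ ≤ K * Real.exp (-(a * t)) ∧
      ‖C.lf f f' ξ q - C.lf f f' ξ q'‖ ≤ K * Real.exp (-(a * t)) * ‖q - q'‖ := by
  obtain ⟨K, δ, K0, d0, hK⟩ := C.box_s H hm
  obtain ⟨b, hb, hN⟩ := C.norm_lf H hm
  have ha := H.a_pos
  refine ⟨8 * Real.exp (a + b), min δ (1 / K), by positivity, by positivity,
    fun f f' ξ t hf hf' ho ht hξ hp => ?_⟩
  obtain ⟨f1, -, h2⟩ := hK f f' ξ t _ hf hf' ho ht hξ (min_le_left _ _) hp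
  have e1 : K * min δ (1 / K) ≤ 1 := (le_div_iff₀' K0).1 (min_le_right _ _)
  have key : ∀ q, ‖q‖ ≤ min δ (1 / K) →
      ‖fderiv ℝ (C.lf f f' ξ) q‖ ≤ 8 * Real.exp (a + b) * Real.exp (-(a * t)) := fun q hq => by
    obtain ⟨u1, -, u3⟩ := h2 q hq
    have u4 := abs_le.1 (u3.trans e1)
    refine ContinuousLinearMap.opNorm_le_bound _ (by positivity) fun e => ?_
    obtain ⟨n1, n2⟩ := hN f f' ξ q e hf hf' f1 u1
    rw [mul_assoc 8, ← Real.exp_add]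
    rcases le_total 0 (C.tm f f' (C.gs f ξ q)) with h | h
    · refine (n1 h).1.trans ?_
      gcongr
      nlinarith [u4.1]
    · refine (n2 h).1.trans ?_
      gcongr
      nlinarith [u4.1]
  exact fun q q' hq hq' => ⟨key q hq, (convex_closedBall (0 : Euc m) _).norm_image_sub_le_of_norm_fderiv_le
    (fun x hx => (C.contDiffAt_lf H hm hf hf' f1 (h2 x (mem_closedBall_zero_iff.1 hx)).1).differentiableAt
      (by simp)) (fun x hx => key x (mem_closedBall_zero_iff.1 hx)) (mem_closedBall_zero_iff.2 hq')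
    (mem_closedBall_zero_iff.2 hq)⟩

/-- the centre leaf as a chain of contractions (input of `PS.Chain`) -/
lemma chain_lf : ∃ (R T0 : ℝ), 0 < R ∧ R ≤ C.rr m ∧ 0 < T0 ∧ ∀ T1 : ℝ, ∃ (b : ℝ) (c : ℕ → ℝ), 1 ≤ b ∧
    ∀ (f f' : FF n N m) (t : ℝ), C.Frm f → C.Frm f' → C.Ov f f' t → T0 ≤ t → t ≤ T1 →
      (∀ q ∈ ball (0 : Euc m) R, C.gs f (C.ge f 0).1 q ∈ C.dm f f' ∧
        |C.tm f f' (C.gs f (C.ge f 0).1 q) - t| ≤ 1 ∧
        ‖C.lf f f' (C.ge f 0).1 q‖ ≤ 1 / 2 * ‖q‖ ∧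
        ∀ k, ‖iteratedFDeriv ℝ k (C.lf f f' (C.ge f 0).1) q‖ ≤ c k) ∧
      ContDiffOn ℝ ∞ (C.lf f f' (C.ge f 0).1) (ball 0 R) ∧
      ∀ y : Euc m, ‖y‖ < R / b → ∃ x : Euc m, ‖x‖ ≤ b * ‖y‖ ∧ C.lf f f' (C.ge f 0).1 x = y := by
  obtain ⟨K1, δ1, k1, d1, h1⟩ := C.box_s H hm
  obtain ⟨K2, δ2, k2, d2, h2⟩ := C.lf_lip H hm
  obtain ⟨K4, k4, h4⟩ := C.gs_le H hm
  have ha := H.a_pos
  have r0 := C.rr_pos H hm
  have r1 := (C.rad H hm).le
  obtain ⟨R, R0, R1, R2, R3, R4⟩ : ∃ R, 0 < R ∧ R ≤ δ1 ∧ R ≤ δ2 ∧ K1 * R ≤ 1 ∧ R ≤ C.rr m :=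
    ⟨min δ1 (min δ2 (min (1 / K1) (C.rr m))), by positivity, min_le_left _ _,
      (min_le_right _ _).trans (min_le_left _ _), (le_div_iff₀' k1).1
        ((min_le_right _ _).trans ((min_le_right _ _).trans (min_le_left _ _))),
      (min_le_right _ _).trans ((min_le_right _ _).trans (min_le_right _ _))⟩
  refine ⟨R, 2 * K2 / a, R0, R4, by positivity, fun T1 => ?_⟩
  obtain ⟨K3, δ3, k3, d3, h3⟩ := C.step' H hm T1
  choose c hc using C.jb_lf H hm T1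
  have p1 : 0 ≤ K3 * K4 := by positivity
  have p2 : 0 ≤ R * K4 / δ3 := by positivity
  refine ⟨1 + K3 * K4 + R * K4 / δ3, c, by linarith, fun f f' t hf hf' ho t0 t1 => ?_⟩
  have ht : 0 ≤ t := le_trans (by positivity) t0
  have n0 : ‖(0 : ZZ m)‖ ≤ 2 * C.rr m := by simpa using r0.le
  obtain ⟨z1, z2, -⟩ := C.Tf_zero H hm hf hf' ho
  have g0 : C.ge f' 0 = C.ge f 0 := by simpa only [z2] using (C.Tf_spec H hm hf' z1).2
  have f1 : C.Fw f' (C.ge f 0).1 := g0 ▸ (C.rad H hm).front f' hf' 0 n0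
  have f2 : C.pq f' (C.ge f 0).1 0 = 0 := g0 ▸ (C.pq_ge H hm hf' n0).1
  have l0 : C.lf f f' (C.ge f 0).1 0 = 0 := by
    rw [lf, show C.gs f (C.ge f 0).1 0 = 0 from C.eq_gs H hf (C.Dm_of_le H hm hf n0), z2]
    rfl
  obtain ⟨f3, -, h5⟩ := h1 f f' _ t R hf hf' ho ht f1 R1 (by rw [f2, norm_zero]; exact R0.le)
  have x1 : K2 * Real.exp (-(a * t)) ≤ 1 / 2 := by
    rw [Real.exp_neg, ← div_eq_mul_inv, div_le_iff₀ (Real.exp_pos _)]
    linarith [Real.add_one_le_exp (a * t), (div_le_iff₀' ha).1 t0]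
  refine ⟨fun q hq => ?_, fun q hq => ?_, fun y hy => ?_⟩
  · have q1 := (mem_ball_zero_iff.1 hq).le
    have l1 := (h2 f f' _ t hf hf' ho ht f1 (by rw [f2, norm_zero]; exact d2.le) q 0 (q1.trans R2)
      (by simpa using d2.le)).2
    rw [l0, sub_zero, sub_zero] at l1
    exact ⟨(h5 q q1).1, (h5 q q1).2.2.trans R3, l1.trans (by gcongr), fun k => hc k (((f, f'), _), q)
      ⟨hf, hf', by rw [Ov.dd C hf ho, abs_of_nonneg ht]; exact t1, f3, (h5 q q1).1⟩⟩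
  · exact (C.contDiffAt_lf H hm hf hf' f3 (h5 q (mem_ball_zero_iff.1 hq).le).1).contDiffWithinAt
  · have y0 := norm_nonneg y
    have y1 := (lt_div_iff₀ (by positivity)).1 hy
    have y2 : ‖y‖ * (R * K4 / δ3) ≤ R := by nlinarith
    have y3 : K4 * ‖y‖ ≤ δ3 := by
      rw [← mul_div_assoc, div_le_iff₀ d3] at y2
      exact le_of_mul_le_mul_left (by linarith) R0
    have y4 := (h4 f' _ y hf' f1.1 (by nlinarith)).1
    rw [f2, norm_zero, zero_add] at y4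
    obtain ⟨u1, u2, -⟩ := h3 f' f _ (-t) _ hf' hf (Ov.symm C hf ho)
      (by rwa [abs_neg, abs_of_nonneg ht]) y3 y4
    exact ⟨_, ((norm_fst_le _).trans u2).trans (by nlinarith), (C.lf_symm H hm hf' hf f1 u1).2⟩

end Crest.Agent.N221.Cov
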